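import Mathlib

/-!
Bond percolation on Cartesian powers of a graph: the definitions used in the statement.
-/

namespace Vale.Agent.P165

open MeasureTheory ProbabilityTheory

/-- The Cartesian power of `G` with coordinate set `ι`: two tuples are adjacent when they differ in
exactly one coordinate, along an edge of `G`. -/
def powGraph {V : Type} (G : SimpleGraph V) (ι : Type) : SimpleGraph (ι → V) where
  Adj x y := ∃ i, G.Adj (x i) (y i) ∧ ∀ j, j ≠ i → x j = y j
  symm := ⟨fun _ _ ⟨i, h, h'⟩ => ⟨i, h.symm, fun j hj => (h' j hj).symm⟩⟩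
  loopless := ⟨fun _ ⟨_, h, _⟩ => h.ne rfl⟩

/-- Independent Bernoulli labels on unordered pairs of vertices. -/
noncomputable def perc (W : Type) (p : unitInterval) : Measure (Sym2 W → Bool) :=
  Measure.infinitePi fun _ => bernoulliMeasure true false p

/-- The open subgraph. -/
def openGraph {W : Type} (H : SimpleGraph W) (ω : Sym2 W → Bool) : SimpleGraph W where
  Adj x y := H.Adj x y ∧ ω s(x, y) = true
  symm := ⟨fun _ _ ⟨h, h'⟩ => ⟨h.symm, by rwa [Sym2.eq_swap]⟩⟩
  loopless := ⟨fun _ ⟨h, _⟩ => h.ne rfl⟩

/-- The critical probability for the existence of an infinite cluster. -/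
noncomputable def pc {W : Type} (H : SimpleGraph W) : ℝ :=
  sInf (insert 1 (Subtype.val '' {p : unitInterval |
    0 < perc W p {ω | ∃ x, {y | (openGraph H ω).Reachable x y}.Infinite}}))

/-- The critical probability for the uniqueness of the infinite cluster. -/
noncomputable def pu {W : Type} (H : SimpleGraph W) : ℝ :=
  sInf (insert 1 (Subtype.val '' {p : unitInterval |
    perc W p {ω | ∃! C : (openGraph H ω).ConnectedComponent, C.supp.Infinite} = 1}))

end Vale.Agent.P165
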