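import Mathlib
import Vale.Agent.P165.Defs

/-!
Elementary facts on percolation: cylinders, independence, measurability, invariance.
-/

namespace Vale.Agent.P165

open MeasureTheory ProbabilityTheory

variable {W : Type} {p : unitInterval}

instance : IsProbabilityMeasure (perc W p) := by unfold perc; infer_instance

/-- All coordinates in `E` are open. -/
def allOpen (E : Finset (Sym2 W)) : Set (Sym2 W → Bool) := {ω | ∀ e ∈ E, ω e = true}

lemma measurableSet_allOpen (E : Finset (Sym2 W)) : MeasurableSet (allOpen E) := by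
  have : allOpen E = ⋂ e ∈ E, (fun ω : Sym2 W → Bool => ω e) ⁻¹' {true} := by
    ext ω; simp [allOpen]
  rw [this]
  exact Finset.measurableSet_biInter E fun e _ => measurable_pi_apply e (measurableSet_singleton _)

lemma real_allOpen (E : Finset (Sym2 W)) : (perc W p).real (allOpen E) = (p : ℝ) ^ E.card := by
  classical
  have : allOpen E = Set.pi (E : Set (Sym2 W)) fun _ => ({true} : Set Bool) := by
    ext ω; simp [allOpen]
  rw [this, measureReal_def, perc, Measure.infinitePi_pi _ fun _ _ => measurableSet_singleton _]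
  simp [Finset.prod_const]

/-- The event is decided by the coordinates in `S`. -/
def Dep (A : Set (Sym2 W → Bool)) (S : Finset (Sym2 W)) : Prop :=
  ∀ ω ω', (∀ e ∈ S, ω e = ω' e) → ω ∈ A → ω' ∈ A

lemma Dep.eq_preimage {A : Set (Sym2 W → Bool)} {S : Finset (Sym2 W)} (h : Dep A S) :
    A = S.restrict ⁻¹' (S.restrict '' A) := by
  refine (Set.subset_preimage_image _ A).antisymm ?_
  rintro ω ⟨ω', hω', he⟩
  exact h ω' ω (fun e he' => congrFun he ⟨e, he'⟩) hω'

lemma Dep.measurableSet {A : Set (Sym2 W → Bool)} {S : Finset (Sym2 W)} (h : Dep A S) :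
    MeasurableSet A := by
  rw [h.eq_preimage]
  exact Finset.measurable_restrict S (Set.toFinite _).measurableSet

lemma Dep.mono {A : Set (Sym2 W → Bool)} {S T : Finset (Sym2 W)} (h : Dep A S) (hST : S ⊆ T) :
    Dep A T := fun ω ω' he => h ω ω' fun e hs => he e (hST hs)

lemma Dep.compl {A : Set (Sym2 W → Bool)} {S : Finset (Sym2 W)} (h : Dep A S) : Dep Aᶜ S :=
  fun ω ω' he hn hm => hn (h ω' ω (fun e hs => (he e hs).symm) hm)

lemma Dep.inter {A B : Set (Sym2 W → Bool)} {S : Finset (Sym2 W)} (hA : Dep A S) (hB : Dep B S) :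
    Dep (A ∩ B) S := fun ω ω' he h => ⟨hA ω ω' he h.1, hB ω ω' he h.2⟩

lemma dep_allOpen (E : Finset (Sym2 W)) : Dep (allOpen E) E :=
  fun _ _ he h e hs => (he e hs).symm.trans (h e hs)

lemma real_inter_of_disjoint {A B : Set (Sym2 W → Bool)} {S T : Finset (Sym2 W)}
    (hA : Dep A S) (hB : Dep B T) (hST : Disjoint S T) :
    (perc W p).real (A ∩ B) = (perc W p).real A * (perc W p).real B := by
  have hi : iIndepFun (fun (e : Sym2 W) (ω : Sym2 W → Bool) => ω e) (perc W p) :=
    iIndepFun_infinitePi (X := fun _ b => b) fun _ => measurable_id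
  have h := (hi.indepFun_finset S T hST fun e => measurable_pi_apply e).measure_inter_preimage_eq_mul
    (S.restrict '' A) (T.restrict '' B) (Set.toFinite _).measurableSet
    (Set.toFinite _).measurableSet
  have eA : (fun ω (i : S) => ω i) ⁻¹' (S.restrict '' A) = A := hA.eq_preimage.symm
  have eB : (fun ω (i : T) => ω i) ⁻¹' (T.restrict '' B) = B := hB.eq_preimage.symm
  rw [eA, eB] at h
  simp only [measureReal_def, h, ENNReal.toReal_mul]

/-- Relabelling by a permutation of the vertices preserves the measure. -/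
lemma perc_map (φ : W ≃ W) :
    (perc W p).map (fun ω e => ω (Sym2.map φ e)) = perc W p :=
  MeasureTheory.Measure.map_infinitePi_infinitePi_of_inj (Sym2.map.injective φ.injective)

variable (H : SimpleGraph W)

/-- `x` and `y` are joined by open edges. -/
def conn (x y : W) : Set (Sym2 W → Bool) := {ω | (openGraph H ω).Reachable x y}

/-- The cluster of `x` is infinite. -/
def toInf (x : W) : Set (Sym2 W → Bool) := {ω | {y | (openGraph H ω).Reachable x y}.Infinite}

variable {H}

lemma reachable_openGraph_of_walk {ω : Sym2 W → Bool} {x y : W} :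
    ∀ q : H.Walk x y, (∀ e ∈ q.edges, ω e = true) → (openGraph H ω).Reachable x y
  | .nil, _ => SimpleGraph.Reachable.refl _
  | .cons h q, he =>
    (SimpleGraph.Adj.reachable (G := openGraph H ω) ⟨h, he _ (by simp)⟩).trans
      (reachable_openGraph_of_walk q fun e hm => he e (by simp [hm]))

lemma openGraph_le (ω : Sym2 W → Bool) : openGraph H ω ≤ H := fun _ _ h => h.1

lemma exists_path_of_mem_conn [DecidableEq W] {ω : Sym2 W → Bool} {x y : W} (h : ω ∈ conn H x y) :
    ∃ q : H.Walk x y, q.IsPath ∧ ω ∈ allOpen q.edges.toFinset := by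
  obtain ⟨q, hq⟩ := SimpleGraph.Reachable.exists_isPath h
  refine ⟨q.mapLe (openGraph_le ω), hq.mapLe _, fun e he => ?_⟩
  rw [List.mem_toFinset, SimpleGraph.Walk.edges_mapLe_eq_edges] at he
  have := q.edges_subset_edgeSet he
  induction e using Sym2.ind with
  | _ a b => exact this.2

lemma conn_eq_iUnion [DecidableEq W] [H.LocallyFinite] (x y : W) :
    conn H x y = ⋃ n, ⋃ q ∈ H.finsetWalkLength n x y, allOpen q.edges.toFinset := by
  ext ω
  simp only [Set.mem_iUnion, exists_prop]
  constructor
  · intro h
    obtain ⟨q, -, hq⟩ := exists_path_of_mem_conn h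
    exact ⟨q.length, q, SimpleGraph.mem_finsetWalkLength_iff.2 rfl, hq⟩
  · rintro ⟨n, q, -, hq⟩
    exact reachable_openGraph_of_walk q fun e he => hq e (List.mem_toFinset.2 he)

lemma measurableSet_conn [H.LocallyFinite] (x y : W) : MeasurableSet (conn H x y) := by
  classical
  rw [conn_eq_iUnion]
  exact MeasurableSet.iUnion fun n => Finset.measurableSet_biUnion _ fun q _ =>
    measurableSet_allOpen _

lemma toInf_eq [Countable W] (x : W) :
    toInf H x = ⋂ s : Finset W, ⋃ y ∈ {y | y ∉ s}, conn H x y := by
  ext ω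
  simp only [toInf, Set.mem_ofPred_eq, Set.mem_iInter, Set.mem_iUnion, exists_prop, conn]
  constructor
  · intro h s
    obtain ⟨y, hy, hys⟩ := h.exists_notMem_finset s
    exact ⟨y, hys, hy⟩
  · intro h hfin
    obtain ⟨y, hy, hyr⟩ := h hfin.toFinset
    exact hy (hfin.mem_toFinset.2 hyr)

lemma measurableSet_toInf [Countable W] [H.LocallyFinite] (x : W) :
    MeasurableSet (toInf H x) := by
  rw [toInf_eq]
  exact MeasurableSet.iInter fun s => MeasurableSet.biUnion (Set.to_countable _)
    fun y _ => measurableSet_conn x y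

/-- A connected locally finite graph has countably many vertices. -/
theorem countable_of_connected [H.LocallyFinite] (hc : H.Connected) : Countable W := by
  classical
  obtain ⟨o⟩ := hc.nonempty
  let ball : ℕ → Finset W := fun n => Nat.rec (motive := fun _ => Finset W) {o}
    (fun _ s => s ∪ s.biUnion fun v => H.neighborFinset v) n
  have key : ∀ (a b : W) (q : H.Walk a b), (∃ n, a ∈ ball n) → ∃ n, b ∈ ball n := by
    intro a b q
    induction q with
    | nil => exact id
    | @cons a c b h q ih =>
      rintro ⟨n, hn⟩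
      refine ih ⟨n + 1, Finset.mem_union_right _ (Finset.mem_biUnion.2 ⟨a, hn, ?_⟩)⟩
      simpa using h
  have : (Set.univ : Set W) = ⋃ n, (↑(ball n) : Set W) := by
    refine (Set.eq_univ_of_forall fun v => ?_).symm
    obtain ⟨q⟩ := hc.preconnected o v
    obtain ⟨n, hn⟩ := key o v q ⟨0, Finset.mem_singleton_self o⟩
    exact Set.mem_iUnion.2 ⟨n, hn⟩
  exact Set.countable_univ_iff.1 (this ▸ Set.countable_iUnion fun n => (ball n).countable_toSet)

lemma openGraph_map_iso (φ : H ≃g H) (ω : Sym2 W → Bool) (x y : W) :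
    (openGraph H fun e => ω (Sym2.map φ e)).Reachable x y ↔
      (openGraph H ω).Reachable (φ x) (φ y) := by
  let ψ : openGraph H (fun e => ω (Sym2.map φ e)) ≃g openGraph H ω :=
    { toEquiv := φ.toEquiv
      map_rel_iff' := by
        intro a b
        simp [openGraph, φ.map_adj_iff] }
  exact (SimpleGraph.Iso.reachable_iff (φ := ψ)).symm

lemma real_toInf_map [Countable W] [H.LocallyFinite] (φ : H ≃g H) (x : W) :
    (perc W p).real (toInf H (φ x)) = (perc W p).real (toInf H x) := by
  conv_rhs => rw [← perc_map φ.toEquiv]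
  rw [map_measureReal_apply (measurable_pi_lambda _ fun e => measurable_pi_apply _)
    (measurableSet_toInf x)]
  congr 1
  ext ω
  simp only [toInf, Set.mem_preimage, Set.mem_ofPred_eq]
  have h : {y | (openGraph H fun e => ω (Sym2.map φ.toEquiv e)).Reachable x y}
      = φ ⁻¹' {y | (openGraph H ω).Reachable (φ x) y} := by
    ext y
    exact openGraph_map_iso φ ω x y
  rw [h]
  exact ⟨fun hi => hi.preimage (by simp [φ.surjective.range_eq]), fun hi =>
    (hi.image φ.injective.injOn).mono (Set.image_preimage_subset _ _)⟩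

end Vale.Agent.P165
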