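import Mathlib

/-!
Counting walks in a regular graph with positive edge isoperimetric constant (Cheeger inequality).
-/

namespace Vale.Agent.P165

open Finset

variable {W : Type} (H : SimpleGraph W)

/-- Adjacency weight. -/
noncomputable def adjW (x z : W) : ℝ := by
  classical exact if H.Adj x z then 1 else 0

lemma adjW_nonneg (x z : W) : 0 ≤ adjW H x z := by unfold adjW; split <;> norm_num

lemma adjW_comm (x z : W) : adjW H x z = adjW H z x := by
  classical
  unfold adjW
  exact if_congr (H.adj_comm x z) rfl rfl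

lemma adjW_sq (x z : W) : adjW H x z * adjW H x z = adjW H x z := by
  unfold adjW; split <;> norm_num

variable [H.LocallyFinite]

/-- Each vertex of `S` has all its neighbours in `T`. -/
def Inside (S T : Finset W) : Prop := S ⊆ T ∧ ∀ x ∈ S, H.neighborFinset x ⊆ T

variable {H}

lemma sum_adjW {S T : Finset W} (hS : Inside H S T) {x : W} (hx : x ∈ S) (f : W → ℝ) :
    ∑ z ∈ T, adjW H x z * f z = ∑ z ∈ H.neighborFinset x, f z := by
  classical
  rw [← Finset.sum_subset (hS.2 x hx) (fun z _ hz => by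
    rw [SimpleGraph.mem_neighborFinset] at hz
    simp [adjW, hz])]
  refine Finset.sum_congr rfl fun z hz => ?_
  rw [SimpleGraph.mem_neighborFinset] at hz
  simp [adjW, hz]

variable [DecidableEq W]

/-- The layer-cake form of the isoperimetric inequality. -/
lemma coarea {hE : ℝ}
    (hiso : ∀ S : Finset W, hE * S.card ≤ ∑ x ∈ S, ((H.neighborFinset x \ S).card : ℝ)) :
    ∀ (S T : Finset W) (g : W → ℝ), Inside H S T → (∀ x ∈ S, 0 < g x) → (∀ x ∉ S, g x = 0) →
      2 * hE * ∑ x ∈ S, g x ≤ ∑ x ∈ T, ∑ z ∈ T, adjW H x z * |g x - g z| := by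
  intro S
  induction S using Finset.strongInduction with
  | _ S ih =>
    intro T g hS hpos hzero
    rcases S.eq_empty_or_nonempty with rfl | hne
    · simp only [sum_empty, mul_zero]
      exact sum_nonneg fun x _ => sum_nonneg fun z _ =>
        mul_nonneg (adjW_nonneg H x z) (abs_nonneg _)
    · obtain ⟨x₀, hx₀, hmin⟩ := S.exists_min_image g hne
      set m := g x₀ with hm
      let ind : W → ℝ := fun x => if x ∈ S then 1 else 0
      let g' : W → ℝ := fun x => g x - m * ind x
      let S' := S.filter fun x => m < g x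
      have hS' : S' ⊂ S := Finset.filter_ssubset.2 ⟨x₀, hx₀, lt_irrefl _⟩
      have h1 := ih S' hS' T g' ⟨(filter_subset _ _).trans hS.1,
        fun x hx => hS.2 x (mem_filter.1 hx).1⟩
        (fun x hx => by
          obtain ⟨hxS, hlt⟩ := mem_filter.1 hx
          simp only [g', ind, if_pos hxS]; linarith)
        (fun x hx => by
          by_cases hxS : x ∈ S
          · have : g x = m := le_antisymm (not_lt.1 fun h => hx (mem_filter.2 ⟨hxS, h⟩))
              (hmin x hxS)
            simp [g', ind, hxS, this]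
          · simp [g', ind, hxS, hzero x hxS])
      have hpt : ∀ x z, |g x - g z| = m * (ind x * (1 - ind z) + ind z * (1 - ind x))
          + |g' x - g' z| := by
        intro x z
        have hm0 : 0 < m := hpos x₀ hx₀
        by_cases hx : x ∈ S <;> by_cases hz : z ∈ S <;> simp [g', ind, hx, hz]
        · have := hmin x hx
          rw [hzero z hz, sub_zero, abs_of_pos (hpos x hx), sub_zero,
            abs_of_nonneg (by linarith : 0 ≤ g x - m)]
          ring
        · have := hmin z hz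
          rw [hzero x hx, zero_sub, abs_neg, abs_of_pos (hpos z hz), zero_sub, abs_neg,
            abs_of_nonneg (by linarith : 0 ≤ g z - m)]
          ring
      have hb : ∑ x ∈ T, ∑ z ∈ T, adjW H x z * (ind x * (1 - ind z))
          = ∑ x ∈ S, ((H.neighborFinset x \ S).card : ℝ) := by
        rw [← Finset.sum_subset hS.1 (fun x _ hx => by simp [ind, hx])]
        refine Finset.sum_congr rfl fun x hx => ?_
        rw [sum_adjW hS hx fun z => ind x * (1 - ind z), Finset.sdiff_eq_filter,
          Finset.card_filter, Nat.cast_sum]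
        refine Finset.sum_congr rfl fun z _ => ?_
        by_cases hz : z ∈ S <;> simp [ind, hx, hz]
      have hb' : ∑ x ∈ T, ∑ z ∈ T, adjW H x z * (ind z * (1 - ind x))
          = ∑ x ∈ S, ((H.neighborFinset x \ S).card : ℝ) := by
        rw [← hb, Finset.sum_comm]
        exact Finset.sum_congr rfl fun x _ => Finset.sum_congr rfl fun z _ => by
          rw [adjW_comm]
      have hsum : ∑ x ∈ S, g x = m * S.card + ∑ x ∈ S', g' x := by
        rw [Finset.sum_subset (filter_subset _ _) (fun x hx hx' => by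
          have : g x = m := le_antisymm (not_lt.1 fun h => hx' (mem_filter.2 ⟨hx, h⟩)) (hmin x hx)
          simp [g', ind, hx, this]) (f := g')]
        have e : ∑ x ∈ S, g' x = ∑ x ∈ S, (g x - m) :=
          Finset.sum_congr rfl fun x hx => by simp [g', ind, hx]
        rw [e, Finset.sum_sub_distrib, Finset.sum_const, nsmul_eq_mul]
        ring
      simp only [hpt, mul_add, Finset.sum_add_distrib, mul_left_comm (adjW H _ _) m, ← mul_sum,
        hb, hb', hsum]
      have := mul_le_mul_of_nonneg_left (hiso S) (hpos x₀ hx₀).le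
      rw [← hm] at this
      linarith

/-- Cheeger's inequality for the adjacency form. -/
lemma form_bound {hE : ℝ} {D : ℕ} (hE0 : 0 ≤ hE) (hreg : ∀ x, (H.neighborFinset x).card = D)
    (hiso : ∀ S : Finset W, hE * S.card ≤ ∑ x ∈ S, ((H.neighborFinset x \ S).card : ℝ))
    {S T : Finset W} (hS : Inside H S T) (u : W → ℝ) (hu : ∀ x ∉ S, u x = 0) :
    |∑ x ∈ T, ∑ z ∈ T, adjW H x z * (u x * u z)|
      ≤ Real.sqrt ((D : ℝ) ^ 2 - hE ^ 2) * ∑ x ∈ T, u x ^ 2 := by
  set F := ∑ x ∈ T, u x ^ 2 with hF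
  set q := ∑ x ∈ T, ∑ z ∈ T, adjW H x z * (|u x| * |u z|) with hq
  have habs : |∑ x ∈ T, ∑ z ∈ T, adjW H x z * (u x * u z)| ≤ q :=
    (abs_sum_le_sum_abs _ _).trans (sum_le_sum fun x _ => (abs_sum_le_sum_abs _ _).trans
      (sum_le_sum fun z _ => by rw [abs_mul, abs_mul, abs_of_nonneg (adjW_nonneg H x z)]))
  have hq0 : 0 ≤ q := sum_nonneg fun x _ => sum_nonneg fun z _ =>
    mul_nonneg (adjW_nonneg H x z) (by positivity)
  have hF0 : 0 ≤ F := sum_nonneg fun x _ => sq_nonneg _
  have hdeg : ∑ x ∈ T, ∑ z ∈ T, adjW H x z * u x ^ 2 = D * F := by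
    rw [hF, mul_sum]
    refine Finset.sum_congr rfl fun x _ => ?_
    by_cases hx : x ∈ S
    · rw [sum_adjW hS hx fun _ => u x ^ 2, Finset.sum_const, hreg, nsmul_eq_mul]
    · simp [hu x hx]
  have hdeg' : ∑ x ∈ T, ∑ z ∈ T, adjW H x z * u z ^ 2 = D * F := by
    rw [← hdeg, Finset.sum_comm]
    exact Finset.sum_congr rfl fun x _ => Finset.sum_congr rfl fun z _ => by rw [adjW_comm]
  have e1 : ∀ x z : W, adjW H x z * (|u x| - |u z|) ^ 2 = adjW H x z * u x ^ 2
      + adjW H x z * u z ^ 2 - 2 * (adjW H x z * (|u x| * |u z|)) := fun x z => by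
    rw [← sq_abs (u x), ← sq_abs (u z)]; ring
  have e2 : ∀ x z : W, adjW H x z * (|u x| + |u z|) ^ 2 = adjW H x z * u x ^ 2
      + adjW H x z * u z ^ 2 + 2 * (adjW H x z * (|u x| * |u z|)) := fun x z => by
    rw [← sq_abs (u x), ← sq_abs (u z)]; ring
  have hco : 2 * hE * F ≤ ∑ x ∈ T, ∑ z ∈ T, adjW H x z * |u x ^ 2 - u z ^ 2| := by
    have h := coarea hiso (S.filter fun x => u x ≠ 0) T (fun x => u x ^ 2)
      ⟨(filter_subset _ _).trans hS.1, fun x hx => hS.2 x (mem_filter.1 hx).1⟩
      (fun x hx => by have := (mem_filter.1 hx).2; positivity)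
      (fun x hx => by
        by_cases hxS : x ∈ S
        · have : u x = 0 := not_not.1 fun h => hx (mem_filter.2 ⟨hxS, h⟩)
          simp [this]
        · simp [hu x hxS])
    refine le_trans (le_of_eq ?_) h
    congr 1
    refine (Finset.sum_subset ((filter_subset _ _).trans hS.1) fun x _ hx => ?_).symm
    by_cases hxS : x ∈ S
    · have : u x = 0 := not_not.1 fun h => hx (mem_filter.2 ⟨hxS, h⟩)
      simp [this]
    · simp [hu x hxS]
  have hcs := Finset.sum_mul_sq_le_sq_mul_sq (T ×ˢ T)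
    (fun xz => adjW H xz.1 xz.2 * |(|u xz.1| - |u xz.2|)|)
    (fun xz => adjW H xz.1 xz.2 * (|u xz.1| + |u xz.2|))
  have t1 : ∀ x z : W, adjW H x z * |(|u x| - |u z|)| * (adjW H x z * (|u x| + |u z|))
      = adjW H x z * |u x ^ 2 - u z ^ 2| := fun x z => by
    rw [mul_mul_mul_comm, adjW_sq, ← abs_of_nonneg (by positivity : 0 ≤ |u x| + |u z|), ← abs_mul]
    congr 2
    rw [← sq_abs (u x), ← sq_abs (u z)]; ring
  have t2 : ∀ x z : W, (adjW H x z * |(|u x| - |u z|)|) ^ 2
      = adjW H x z * (|u x| - |u z|) ^ 2 := fun x z => by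
    rw [mul_pow, sq_abs, sq, adjW_sq]
  have t3 : ∀ x z : W, (adjW H x z * (|u x| + |u z|)) ^ 2
      = adjW H x z * (|u x| + |u z|) ^ 2 := fun x z => by
    rw [mul_pow, sq, adjW_sq]
  simp only [Finset.sum_product, t1, t2, t3, e1, e2, Finset.sum_add_distrib,
    Finset.sum_sub_distrib, ← mul_sum, hdeg, hdeg', ← hq] at hcs
  have hq2 : q ^ 2 ≤ ((D : ℝ) ^ 2 - hE ^ 2) * F ^ 2 := by
    have := (pow_le_pow_left₀ (by positivity) hco 2).trans hcs
    nlinarith [this]
  refine habs.trans ?_
  rcases le_total ((D : ℝ) ^ 2 - hE ^ 2) 0 with hneg | hneg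
  · have : q = 0 := by nlinarith [mul_nonpos_of_nonpos_of_nonneg hneg (sq_nonneg F)]
    rw [this]; positivity
  · calc q = Real.sqrt (q ^ 2) := (Real.sqrt_sq hq0).symm
      _ ≤ Real.sqrt (((D : ℝ) ^ 2 - hE ^ 2) * F ^ 2) := Real.sqrt_le_sqrt hq2
      _ = _ := by rw [Real.sqrt_mul hneg, Real.sqrt_sq hF0]

/-- The adjacency operator has norm at most `c` once the form is bounded by `c`. -/
lemma norm_bound {c : ℝ} (hc : 0 ≤ c)
    (hform : ∀ (S T : Finset W), Inside H S T → ∀ u : W → ℝ, (∀ x ∉ S, u x = 0) →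
      |∑ x ∈ T, ∑ z ∈ T, adjW H x z * (u x * u z)| ≤ c * ∑ x ∈ T, u x ^ 2)
    (S : Finset W) (f : W → ℝ) (hf : ∀ x ∉ S, f x = 0) :
    ∑ x ∈ S.biUnion (H.neighborFinset ·), (∑ z ∈ H.neighborFinset x, f z) ^ 2
      ≤ c ^ 2 * ∑ x ∈ S, f x ^ 2 := by
  set N := S.biUnion (H.neighborFinset ·) with hN
  set U := S ∪ N with hU
  set T := U ∪ U.biUnion (H.neighborFinset ·) with hT
  have hin : Inside H U T := ⟨subset_union_left, fun x hx => fun z hz =>
    mem_union_right _ (mem_biUnion.2 ⟨x, hx, hz⟩)⟩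
  set g : W → ℝ := fun x => if x ∈ N then ∑ z ∈ H.neighborFinset x, f z else 0 with hg
  set X := ∑ x ∈ N, (∑ z ∈ H.neighborFinset x, f z) ^ 2 with hX
  have hNT : N ⊆ T := subset_union_right.trans subset_union_left
  have hST : S ⊆ T := subset_union_left.trans subset_union_left
  have hgX : ∑ x ∈ T, g x ^ 2 = X := by
    rw [hX, ← Finset.sum_subset hNT fun x _ hx => by simp [hg, hx]]
    exact Finset.sum_congr rfl fun x hx => by simp [hg, hx]
  have hfF : ∑ x ∈ T, f x ^ 2 = ∑ x ∈ S, f x ^ 2 :=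
    (Finset.sum_subset hST fun x _ hx => by simp [hf x hx]).symm
  have hpair : ∑ x ∈ T, ∑ z ∈ T, adjW H x z * (g x * f z) = X := by
    rw [← hgX]
    refine Finset.sum_congr rfl fun x _ => ?_
    by_cases hx : x ∈ N
    · rw [sum_adjW hin (mem_union_right _ hx) fun z => g x * f z, ← mul_sum, sq]
      simp [hg, hx]
    · simp [hg, hx]
  have hpair' : ∑ x ∈ T, ∑ z ∈ T, adjW H x z * (f x * g z) = X := by
    rw [← hpair, Finset.sum_comm]
    exact Finset.sum_congr rfl fun x _ => Finset.sum_congr rfl fun z _ => by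
      rw [adjW_comm, mul_comm (f z)]
  have hz1 : ∀ x ∉ U, c * f x + g x = 0 := fun x hx => by
    simp [hg, hf x fun h => hx (mem_union_left _ h), show x ∉ N from fun h => hx (mem_union_right _ h)]
  have hz2 : ∀ x ∉ U, c * f x - g x = 0 := fun x hx => by
    simp [hg, hf x fun h => hx (mem_union_left _ h), show x ∉ N from fun h => hx (mem_union_right _ h)]
  have k1 := (le_abs_self _).trans (hform U T hin (fun x => c * f x + g x) hz1)
  have k2 := (neg_le_abs _).trans (hform U T hin (fun x => c * f x - g x) hz2)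
  have e : ∀ x z : W, adjW H x z * ((c * f x + g x) * (c * f z + g z))
      - adjW H x z * ((c * f x - g x) * (c * f z - g z))
      = 2 * c * (adjW H x z * (f x * g z)) + 2 * c * (adjW H x z * (g x * f z)) := fun x z => by
    ring
  have hd := Finset.sum_congr rfl fun x (_ : x ∈ T) =>
    Finset.sum_congr rfl fun z (_ : z ∈ T) => e x z
  simp only [Finset.sum_sub_distrib, Finset.sum_add_distrib, ← mul_sum, hpair, hpair'] at hd
  have e' : ∑ x ∈ T, (c * f x + g x) ^ 2 + ∑ x ∈ T, (c * f x - g x) ^ 2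
      = 2 * c ^ 2 * ∑ x ∈ S, f x ^ 2 + 2 * X := by
    rw [← hfF, ← hgX, mul_sum, mul_sum, ← Finset.sum_add_distrib, ← Finset.sum_add_distrib]
    exact Finset.sum_congr rfl fun x _ => by ring
  rcases hc.eq_or_lt with rfl | hc'
  · have h0 := hform U T hin (fun x => f x + g x) fun x hx => by
      simp [hg, hf x fun h => hx (mem_union_left _ h), show x ∉ N from fun h => hx (mem_union_right _ h)]
    have h0' := hform U T hin (fun x => f x - g x) fun x hx => by
      simp [hg, hf x fun h => hx (mem_union_left _ h), show x ∉ N from fun h => hx (mem_union_right _ h)]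
    rw [zero_mul, abs_nonpos_iff] at h0 h0'
    have e0 : ∀ x z : W, adjW H x z * ((f x + g x) * (f z + g z))
        - adjW H x z * ((f x - g x) * (f z - g z))
        = 2 * (adjW H x z * (f x * g z)) + 2 * (adjW H x z * (g x * f z)) := fun x z => by ring
    have hd0 := Finset.sum_congr rfl fun x (_ : x ∈ T) =>
      Finset.sum_congr rfl fun z (_ : z ∈ T) => e0 x z
    simp only [Finset.sum_sub_distrib, Finset.sum_add_distrib, ← mul_sum, hpair, hpair', h0,
      h0'] at hd0
    nlinarith [sum_nonneg fun x (_ : x ∈ S) => sq_nonneg (f x)]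
  · have : 4 * c * X ≤ c * (2 * c ^ 2 * ∑ x ∈ S, f x ^ 2 + 2 * X) := by
      rw [← e', mul_add]; linarith
    nlinarith

/-- Number of walks. -/
noncomputable def walkCount (H : SimpleGraph W) [H.LocallyFinite] (y : W) (n : ℕ) (x : W) : ℝ :=
  (H.finsetWalkLength n x y).card

lemma walkCount_succ (y : W) (n : ℕ) (x : W) :
    walkCount H y (n + 1) x = ∑ z ∈ H.neighborFinset x, walkCount H y n z := by
  unfold walkCount
  simp only [SimpleGraph.finsetWalkLength]
  rw [Finset.card_biUnion, ← Nat.cast_sum]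
  · congr 1
    simp only [Finset.card_map]
    rw [← Finset.sum_subtype (H.neighborFinset x) (fun z => by simp) fun z =>
      (H.finsetWalkLength n z y).card]
  · rintro ⟨a, ha⟩ _ ⟨b, hb⟩ _ hab
    simp only [Function.onFun, Finset.disjoint_left, Finset.mem_map, Function.Embedding.coeFn_mk]
    rintro q ⟨q₁, -, rfl⟩ ⟨q₂, -, h⟩
    cases h
    exact hab rfl

/-- Exponential bound on the number of walks between two vertices. -/
theorem walkCount_le {hE : ℝ} {D : ℕ} (hE0 : 0 ≤ hE)
    (hreg : ∀ x, (H.neighborFinset x).card = D)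
    (hiso : ∀ S : Finset W, hE * S.card ≤ ∑ x ∈ S, ((H.neighborFinset x \ S).card : ℝ))
    (x y : W) (n : ℕ) :
    walkCount H y n x ≤ Real.sqrt ((D : ℝ) ^ 2 - hE ^ 2) ^ n := by
  set c := Real.sqrt ((D : ℝ) ^ 2 - hE ^ 2) with hc
  have hc0 : 0 ≤ c := Real.sqrt_nonneg _
  suffices ∃ S : Finset W, (∀ z ∉ S, walkCount H y n z = 0) ∧
      ∑ z ∈ S, walkCount H y n z ^ 2 ≤ (c ^ n) ^ 2 by
    obtain ⟨S, h0, hS⟩ := this
    by_cases hx : x ∈ S
    · exact le_of_abs_le (abs_le_of_sq_le_sq ((Finset.single_le_sum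
        (fun z _ => sq_nonneg (walkCount H y n z)) hx).trans hS) (pow_nonneg hc0 n))
    · rw [h0 x hx]; exact pow_nonneg hc0 n
  induction n with
  | zero =>
    refine ⟨{y}, fun z hz => ?_, ?_⟩
    · simp [walkCount, SimpleGraph.finsetWalkLength, show z ≠ y by simpa using hz]
    · simp [walkCount, SimpleGraph.finsetWalkLength]
  | succ n ih =>
    obtain ⟨S, h0, hS⟩ := ih
    refine ⟨S.biUnion (H.neighborFinset ·), fun z hz => ?_, ?_⟩
    · rw [walkCount_succ]
      refine Finset.sum_eq_zero fun w hw => h0 w fun hwS => hz (mem_biUnion.2 ⟨w, hwS, ?_⟩)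
      simpa [SimpleGraph.adj_comm] using hw
    · simp only [walkCount_succ]
      refine (norm_bound hc0 (fun S' T' hin u hu => form_bound hE0 hreg hiso hin u hu) S _
        h0).trans ?_
      calc c ^ 2 * ∑ z ∈ S, walkCount H y n z ^ 2 ≤ c ^ 2 * (c ^ n) ^ 2 :=
            mul_le_mul_of_nonneg_left hS (sq_nonneg c)
        _ = _ := by ring

end Vale.Agent.P165
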