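import Mathlib
import Vale.Agent.P165.Basic
import Vale.Agent.P165.Cheeger

/-!
The infinite cluster is not unique while `p` times the growth rate of walks is below one.
-/

namespace Vale.Agent.P165

open MeasureTheory Finset

variable {W : Type} {H : SimpleGraph W} [H.LocallyFinite] [DecidableEq W] {p : unitInterval}

/-- A finite set containing every vertex reachable from `a` by a walk of length at most `n`. -/
def near (H : SimpleGraph W) [H.LocallyFinite] (a : W) : ℕ → Finset W
  | 0 => {a}
  | n + 1 => near H a n ∪ (near H a n).biUnion (H.neighborFinset ·)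

lemma near_mono (a : W) : Monotone (near H a) :=
  monotone_nat_of_le_succ fun _ => subset_union_left

lemma mem_near {a b : W} (q : H.Walk a b) {n : ℕ} (hn : q.length ≤ n) : b ∈ near H a n := by
  suffices ∀ {c d : W} (r : H.Walk c d) (i : ℕ), c ∈ near H a i → d ∈ near H a (i + r.length) from
    near_mono a hn (by simpa using this q 0 (by simp [near]))
  intro c d r
  induction r with
  | nil => intro i hi; simpa using hi
  | @cons c e d h r ih =>
    intro i hi
    have := ih (i + 1) (mem_union_right _ (mem_biUnion.2 ⟨c, hi, by simpa using h⟩))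
    rwa [add_assoc, add_comm 1] at this

lemma exists_separated (L : ℕ) {O : Set W} (hO : O.Infinite) (m : ℕ) :
    ∃ Y : Finset W, (Y : Set W) ⊆ O ∧ Y.card = m ∧
      ∀ a ∈ Y, ∀ b ∈ Y, a ≠ b → ∀ q : H.Walk a b, L < q.length := by
  induction m with
  | zero => exact ⟨∅, by simp, by simp, by simp⟩
  | succ m ih =>
    obtain ⟨Y, hYO, hY, hsep⟩ := ih
    obtain ⟨y, hy, hyn⟩ := hO.exists_notMem_finset (Y ∪ Y.biUnion fun a => near H a L)
    simp only [mem_union, mem_biUnion, not_or, not_exists, not_and] at hyn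
    refine ⟨insert y Y, by simp [Set.insert_subset_iff, hy, hYO],
      by rw [card_insert_of_notMem hyn.1, hY], fun a ha b hb hab q => ?_⟩
    by_contra hq
    rcases mem_insert.1 ha with rfl | ha' <;> rcases mem_insert.1 hb with rfl | hb'
    · exact hab rfl
    · exact hyn.2 b hb' (mem_near q.reverse (by simpa using not_lt.1 hq))
    · exact hyn.2 a ha' (mem_near q (not_lt.1 hq))
    · exact hq (hsep a ha' b hb' hab q)

lemma real_conn_le {c : ℝ} (hc : ∀ x y n, walkCount H y n x ≤ c ^ n) (hc0 : 0 ≤ c)
    (hpc : (p : ℝ) * c < 1) {L : ℕ} {x y : W} (hxy : ∀ q : H.Walk x y, L < q.length) :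
    (perc W p).real (conn H x y) ≤ ((p : ℝ) * c) ^ L / (1 - (p : ℝ) * c) := by
  classical
  set t := (p : ℝ) * c with ht
  have ht0 : 0 ≤ t := mul_nonneg p.2.1 hc0
  let P : ℕ → Finset (H.Walk x y) := fun n => (H.finsetWalkLength n x y).filter fun q => q.IsPath
  let B : ℕ → Set (Sym2 W → Bool) := fun N =>
    ⋃ n ∈ range N, ⋃ q ∈ P n, allOpen q.edges.toFinset
  have hB : conn H x y ⊆ ⋃ N, B N := fun ω hω => by
    obtain ⟨q, hq, hqo⟩ := exists_path_of_mem_conn hω
    refine Set.mem_iUnion.2 ⟨q.length + 1, Set.mem_biUnion (mem_range.2 (Nat.lt_succ_self _))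
      (Set.mem_biUnion (mem_filter.2 ⟨SimpleGraph.mem_finsetWalkLength_iff.2 rfl, hq⟩) hqo)⟩
  have hmono : Monotone B := fun a b hab =>
    Set.biUnion_subset_biUnion_left (fun _ h => range_subset_range.2 hab h)
  have hN : ∀ N, (perc W p).real (B N) ≤ t ^ L / (1 - t) := by
    intro N
    refine (measureReal_biUnion_finset_le _ _).trans ?_
    calc ∑ n ∈ range N, (perc W p).real (⋃ q ∈ P n, allOpen q.edges.toFinset)
        ≤ ∑ n ∈ range N, if L ≤ n then t ^ n else 0 := by
          refine sum_le_sum fun n _ => ?_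
          refine (measureReal_biUnion_finset_le _ _).trans ?_
          split_ifs with hLn
          · calc ∑ q ∈ P n, (perc W p).real (allOpen q.edges.toFinset)
                = ∑ q ∈ P n, (p : ℝ) ^ n := by
                  refine sum_congr rfl fun q hq => ?_
                  obtain ⟨h1, h2⟩ := mem_filter.1 hq
                  rw [real_allOpen, List.toFinset_card_of_nodup h2.isTrail.edges_nodup,
                    SimpleGraph.Walk.length_edges, SimpleGraph.mem_finsetWalkLength_iff.1 h1]
              _ ≤ (walkCount H y n x) * (p : ℝ) ^ n := by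
                  rw [sum_const, nsmul_eq_mul]
                  exact mul_le_mul_of_nonneg_right (Nat.cast_le.2 (card_filter_le _ _))
                    (pow_nonneg p.2.1 n)
              _ ≤ t ^ n := by
                  rw [ht, mul_pow, mul_comm ((p : ℝ) ^ n)]
                  exact mul_le_mul_of_nonneg_right (hc x y n) (pow_nonneg p.2.1 n)
          · refine (sum_eq_zero fun q hq => absurd (hxy q) ?_).le
            rw [SimpleGraph.mem_finsetWalkLength_iff.1 (mem_filter.1 hq).1]
            omega
      _ = ∑ n ∈ (range N).filter (L ≤ ·), t ^ n := (sum_filter _ _).symm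
      _ ≤ ∑ n ∈ range N, t ^ (L + n) := by
          rw [← sum_image (f := fun n => t ^ n) fun a _ b _ h => Nat.add_left_cancel h]
          refine sum_le_sum_of_subset_of_nonneg (fun n hn => ?_) fun n _ _ => pow_nonneg ht0 n
          obtain ⟨hn1, hn2⟩ := mem_filter.1 hn
          exact mem_image.2 ⟨n - L, mem_range.2 (by have := mem_range.1 hn1; omega), by omega⟩
      _ ≤ t ^ L / (1 - t) := by
          simp only [pow_add, ← mul_sum, div_eq_mul_inv]
          refine mul_le_mul_of_nonneg_left ?_ (pow_nonneg ht0 L)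
          exact sum_le_hasSum _ (fun n _ => pow_nonneg ht0 n)
            (hasSum_geometric_of_lt_one ht0 hpc)
  refine (measureReal_mono hB).trans ?_
  rw [measureReal_def, hmono.measure_iUnion]
  refine ENNReal.toReal_le_of_le_ofReal (div_nonneg (pow_nonneg ht0 L) (by linarith)) (iSup_le fun N => ?_)
  rw [← ofReal_measureReal (measure_ne_top _ _)]
  exact ENNReal.ofReal_le_ofReal (hN N)

omit [DecidableEq W] [H.LocallyFinite] in
lemma sum_sub_pairs_le {Ω ι : Type} [MeasurableSpace Ω] [DecidableEq ι] (μ : Measure Ω)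
    [IsProbabilityMeasure μ] (A : ι → Set Ω) (hA : ∀ i, MeasurableSet (A i)) (Y : Finset ι) :
    ∑ i ∈ Y, μ.real (A i) - ∑ i ∈ Y, ∑ j ∈ Y.erase i, μ.real (A i ∩ A j)
      ≤ μ.real (⋃ i ∈ Y, A i) := by
  induction Y using Finset.induction with
  | empty => simp
  | @insert a Y ha ih =>
    have hu := measureReal_union_add_inter (μ := μ) (s := A a)
      (Finset.measurableSet_biUnion Y fun i _ => hA i) (measure_ne_top _ _) (measure_ne_top _ _)
    have hi : μ.real (A a ∩ ⋃ i ∈ Y, A i) ≤ ∑ j ∈ Y, μ.real (A a ∩ A j) := by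
      rw [Set.inter_iUnion₂]
      exact measureReal_biUnion_finset_le _ _
    have hmore : ∑ i ∈ Y, ∑ j ∈ Y.erase i, μ.real (A i ∩ A j)
        ≤ ∑ i ∈ Y, ∑ j ∈ (insert a Y).erase i, μ.real (A i ∩ A j) :=
      sum_le_sum fun i _ => sum_le_sum_of_subset_of_nonneg
        (erase_subset_erase _ (subset_insert _ _)) fun _ _ _ => measureReal_nonneg
    rw [sum_insert ha, sum_insert ha, erase_insert ha, Finset.set_biUnion_insert]
    linarith

/-- No uniqueness of the infinite cluster when `p * c < 1`. -/
theorem not_unique [Countable W] {c : ℝ} (hc : ∀ x y n, walkCount H y n x ≤ c ^ n) (hc0 : 0 ≤ c)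
    (hpc : (p : ℝ) * c < 1) (horb : ∀ x : W, {z | ∃ φ : H ≃g H, φ x = z}.Infinite) :
    perc W p {ω | ∃! C : (openGraph H ω).ConnectedComponent, C.supp.Infinite} ≠ 1 := by
  intro hS
  set S := {ω | ∃! C : (openGraph H ω).ConnectedComponent, C.supp.Infinite} with hSdef
  have hsupp : ∀ ω x, ((openGraph H ω).connectedComponentMk x).supp
      = {y | (openGraph H ω).Reachable x y} := fun ω x => by
    ext y
    simp [SimpleGraph.ConnectedComponent.eq, SimpleGraph.reachable_comm]
  have hpair : ∀ x y, (perc W p).real ((toInf H x ∩ toInf H y) \ conn H x y) = 0 := by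
    intro x y
    have hm : MeasurableSet ((toInf H x ∩ toInf H y) \ conn H x y) :=
      ((measurableSet_toInf x).inter (measurableSet_toInf y)).diff (measurableSet_conn x y)
    have hsub : S ⊆ ((toInf H x ∩ toInf H y) \ conn H x y)ᶜ := by
      rintro ω ⟨C, hC, huniq⟩ ⟨⟨hx, hy⟩, hn⟩
      have h1 := huniq ((openGraph H ω).connectedComponentMk x)
        (show Set.Infinite _ by rw [hsupp]; exact hx)
      have h2 := huniq ((openGraph H ω).connectedComponentMk y)
        (show Set.Infinite _ by rw [hsupp]; exact hy)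
      exact hn (SimpleGraph.ConnectedComponent.eq.1 (h1.trans h2.symm))
    have h := measure_mono (μ := perc W p) hsub
    rw [hS, prob_compl_eq_one_sub hm] at h
    have : perc W p ((toInf H x ∩ toInf H y) \ conn H x y) = 0 := by
      by_contra hne
      exact absurd h (not_le.2 (ENNReal.sub_lt_self ENNReal.one_ne_top one_ne_zero hne))
    simp [measureReal_def, this]
  obtain ⟨x, hx⟩ : ∃ x, perc W p (toInf H x) ≠ 0 := by
    by_contra h
    push Not at h
    have hsub : S ⊆ ⋃ x, toInf H x := by
      rintro ω ⟨C, hC, -⟩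
      induction C using SimpleGraph.ConnectedComponent.ind with
      | _ v => exact Set.mem_iUnion.2 ⟨v, by rw [toInf, Set.mem_ofPred_eq, ← hsupp]; exact hC⟩
    have := measure_mono_null hsub (measure_iUnion_null h)
    rw [hS] at this
    exact one_ne_zero this
  set θ := (perc W p).real (toInf H x) with hθ
  have hθ0 : 0 < θ := ENNReal.toReal_pos hx (measure_ne_top _ _)
  obtain ⟨m, hm⟩ := exists_nat_gt (2 / θ)
  have hmθ : 2 < m * θ := by rwa [div_lt_iff₀ hθ0] at hm
  obtain ⟨L, hL⟩ := exists_pow_lt_of_lt_one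
    (show 0 < (1 - (p : ℝ) * c) / (m * m + 1) from div_pos (by linarith) (by positivity)) hpc
  obtain ⟨Y, hYO, hY, hsep⟩ := exists_separated (H := H) L (horb x) m
  have hbon := sum_sub_pairs_le (perc W p) (fun z => toInf H z) (fun z => measurableSet_toInf z) Y
  have h1 : ∑ z ∈ Y, (perc W p).real (toInf H z) = m * θ := by
    rw [sum_congr rfl (g := fun _ => θ) fun z hz => ?_, sum_const, hY, nsmul_eq_mul]
    obtain ⟨φ, rfl⟩ := hYO hz
    exact real_toInf_map φ x
  have h2 : ∑ i ∈ Y, ∑ j ∈ Y.erase i, (perc W p).real (toInf H i ∩ toInf H j)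
      ≤ m * (m * (((p : ℝ) * c) ^ L / (1 - (p : ℝ) * c))) := by
    have ht1 : 0 ≤ ((p : ℝ) * c) ^ L / (1 - (p : ℝ) * c) :=
      div_nonneg (pow_nonneg (mul_nonneg p.2.1 hc0) L) (by linarith)
    refine (sum_le_card_nsmul Y _ _ fun i hi => ?_).trans_eq (by rw [hY, nsmul_eq_mul])
    refine (sum_le_card_nsmul (Y.erase i) _ (((p : ℝ) * c) ^ L / (1 - (p : ℝ) * c)) fun j hj => ?_).trans ?_
    · calc (perc W p).real (toInf H i ∩ toInf H j)
          ≤ (perc W p).real (conn H i j ∪ ((toInf H i ∩ toInf H j) \ conn H i j)) :=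
            measureReal_mono fun ω h => (em (ω ∈ conn H i j)).imp id fun h' => ⟨h, h'⟩
        _ ≤ _ := (measureReal_union_le _ _).trans (le_of_eq (by rw [hpair, add_zero]))
        _ ≤ _ := real_conn_le hc hc0 hpc
            (hsep i hi j (mem_of_mem_erase hj) (ne_of_mem_erase hj).symm)
    · rw [nsmul_eq_mul]
      exact mul_le_mul_of_nonneg_right
        (by exact_mod_cast (card_erase_le.trans hY.le)) ht1
  have h3 : (m : ℝ) * (m * (((p : ℝ) * c) ^ L / (1 - (p : ℝ) * c))) < 1 := by
    rw [lt_div_iff₀ (by positivity)] at hL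
    rw [← mul_assoc, ← mul_div_assoc, div_lt_one (by linarith)]
    nlinarith [pow_nonneg (mul_nonneg p.2.1 hc0) L]
  linarith [measureReal_le_one (μ := perc W p) (s := ⋃ z ∈ Y, toInf H z)]

end Vale.Agent.P165
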