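import Mathlib
import Vale.Agent.P165.Basic

/-!
Second moment bound for open paths which change distinct coordinates.
-/

namespace Vale.Agent.P165

open MeasureTheory Finset

/-- Second moment bound: some set of a family is completely open. -/
theorem second_moment {W Γ : Type} {p : unitInterval} (hp : 0 < (p : ℝ)) (P : Finset Γ)
    (E : Γ → Finset (Sym2 W)) [DecidableEq (Sym2 W)] {n : ℕ} {C : ℝ} (hC : 0 < C)
    (hP : P.Nonempty) (hn : ∀ g ∈ P, (E g).card = n)
    (hsum : ∀ g ∈ P, ∑ g' ∈ P, (p : ℝ)⁻¹ ^ (E g ∩ E g').card ≤ C * P.card) :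
    1 / C ≤ (perc W p).real (⋃ g ∈ P, allOpen (E g)) := by
  classical
  set μ := perc W p with hμ
  set U := ⋃ g ∈ P, allOpen (E g) with hU
  have hUm : MeasurableSet U := Finset.measurableSet_biUnion P fun g _ => measurableSet_allOpen _
  set N : ℝ := (P.card : ℝ) with hN
  have hN0 : 0 < N := Nat.cast_pos.2 hP.card_pos
  set a : ℝ := 1 / (C * (N * (p : ℝ) ^ n)) with ha
  have ha0 : 0 < a := by positivity
  let ind : Finset (Sym2 W) → (Sym2 W → Bool) → ℝ := fun F =>
    (allOpen F).indicator fun _ => (1 : ℝ)
  have hint : ∀ F, Integrable (ind F) μ := fun F =>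
    (integrable_const (1 : ℝ)).indicator (measurableSet_allOpen F)
  have hval : ∀ F, ∫ ω, ind F ω ∂μ = (p : ℝ) ^ F.card := fun F => by
    rw [integral_indicator_const (1 : ℝ) (measurableSet_allOpen F), real_allOpen]; simp
  have hinter : ∀ (F F' : Finset (Sym2 W)) ω, ind F ω * ind F' ω = ind (F ∪ F') ω := by
    intro F F' ω
    by_cases h1 : ω ∈ allOpen F <;> by_cases h2 : ω ∈ allOpen F'
    · have : ω ∈ allOpen (F ∪ F') := fun e he => (mem_union.1 he).elim (h1 e) (h2 e)
      simp [ind, h1, h2, this]
    · have : ω ∉ allOpen (F ∪ F') := fun h => h2 fun e he => h e (mem_union_right _ he)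
      simp [ind, h1, h2, this]
    · have : ω ∉ allOpen (F ∪ F') := fun h => h1 fun e he => h e (mem_union_left _ he)
      simp [ind, h1, h2, this]
    · have : ω ∉ allOpen (F ∪ F') := fun h => h1 fun e he => h e (mem_union_left _ he)
      simp [ind, h1, h2, this]
  have hle : ∀ ω, 2 * a * ∑ g ∈ P, ind (E g) ω
      - a ^ 2 * ∑ g ∈ P, ∑ g' ∈ P, ind (E g ∪ E g') ω ≤ U.indicator (fun _ => (1 : ℝ)) ω := by
    intro ω
    simp only [← hinter, ← mul_sum, ← sum_mul]
    by_cases hω : ω ∈ U
    · rw [Set.indicator_of_mem hω]
      nlinarith [sq_nonneg (a * ∑ g ∈ P, ind (E g) ω - 1)]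
    · rw [Set.indicator_of_notMem hω, sum_eq_zero (fun g hg => ?_)]
      · simp
      · exact Set.indicator_of_notMem (fun h => hω (Set.mem_biUnion hg h)) _
  have i1 : Integrable (fun ω => ∑ g ∈ P, ind (E g) ω) μ :=
    integrable_finsetSum P fun g _ => hint _
  have i2 : Integrable (fun ω => ∑ g ∈ P, ∑ g' ∈ P, ind (E g ∪ E g') ω) μ :=
    integrable_finsetSum P fun g _ => integrable_finsetSum P fun g' _ => hint _
  have h := integral_mono ((i1.const_mul (2 * a)).sub (i2.const_mul (a ^ 2)))
    ((integrable_const (1 : ℝ)).indicator hUm) hle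
  rw [integral_sub' (i1.const_mul (2 * a)) (i2.const_mul (a ^ 2)), integral_const_mul,
    integral_const_mul, integral_indicator_const (1 : ℝ) hUm,
    integral_finsetSum P (fun g _ => hint _),
    integral_finsetSum P (fun g _ => integrable_finsetSum P fun g' _ => hint _)] at h
  simp only [integral_finsetSum P (fun g' _ => hint _), hval, smul_eq_mul, mul_one] at h
  rw [sum_congr rfl (fun g hg => by rw [hn g hg]), sum_const, nsmul_eq_mul, ← hN] at h
  have h2 : ∑ g ∈ P, ∑ g' ∈ P, (p : ℝ) ^ (E g ∪ E g').card
      ≤ N * ((p : ℝ) ^ n * (p : ℝ) ^ n * (C * N)) := by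
    rw [hN, ← nsmul_eq_mul]
    refine sum_le_card_nsmul _ _ _ fun g hg => ?_
    calc ∑ g' ∈ P, (p : ℝ) ^ (E g ∪ E g').card
        = ∑ g' ∈ P, (p : ℝ) ^ n * (p : ℝ) ^ n * (p : ℝ)⁻¹ ^ (E g ∩ E g').card := by
          refine sum_congr rfl fun g' hg' => ?_
          rw [inv_pow, eq_mul_inv_iff_mul_eq₀ (pow_ne_zero _ hp.ne'), ← pow_add, ← pow_add,
            card_union_add_card_inter, hn g hg, hn g' hg']
      _ ≤ _ := by
          rw [← mul_sum]
          exact mul_le_mul_of_nonneg_left (hsum g hg) (by positivity)
  have h3 : 2 * a * (N * (p : ℝ) ^ n)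
      - a ^ 2 * (N * ((p : ℝ) ^ n * (p : ℝ) ^ n * (C * N))) = 1 / C := by
    rw [ha]; field_simp; ring
  have h4 := mul_le_mul_of_nonneg_left h2 (sq_nonneg a)
  linarith

variable {V : Type} {K d : ℕ} (h : Fin K → V) (nb : V → Fin d → V)

/-- The endpoint of a path, given as the list of its steps, latest first. -/
def st : List (Fin K × Fin d) → Fin K → V
  | [] => h
  | x :: g => Function.update (st g) x.1 (nb (h x.1) x.2)

/-- Steps allowed after `g`. -/
def allowed (g : List (Fin K × Fin d)) : Finset (Fin K × Fin d) :=
  univ.filter fun x => x.1 ∉ g.map Prod.fst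

/-- Paths of `n` steps changing distinct coordinates. -/
def paths : ℕ → Finset (List (Fin K × Fin d))
  | 0 => {[]}
  | n + 1 => (paths n).biUnion fun g => (allowed g).image (· :: g)

variable [DecidableEq V]

/-- The edges of a path. -/
def pedges : List (Fin K × Fin d) → Finset (Sym2 (Fin K → V))
  | [] => ∅
  | x :: g => insert s(st h nb g, st h nb (x :: g)) (pedges g)

/-- The coordinates changed at `v`. -/
def chg (v : Fin K → V) : Finset (Fin K) := univ.filter fun j => v j ≠ h j

omit [DecidableEq V] in
lemma mem_paths_succ {n : ℕ} {g' : List (Fin K × Fin d)} :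
    g' ∈ paths (n + 1) ↔ ∃ g ∈ paths n, ∃ x ∈ allowed g, x :: g = g' := by
  simp [paths]

omit [DecidableEq V] in
lemma sum_paths_succ (n : ℕ) (F : List (Fin K × Fin d) → ℝ) :
    ∑ g' ∈ paths (n + 1), F g' = ∑ g ∈ paths n, ∑ x ∈ allowed g, F (x :: g) := by
  rw [paths, sum_biUnion]
  · exact sum_congr rfl fun g _ => sum_image fun a _ b _ hab => (List.cons.inj hab).1
  · intro a _ b _ hab
    simp only [Function.onFun, disjoint_left, mem_image]
    rintro _ ⟨x, -, rfl⟩ ⟨y, -, hy⟩
    exact hab (List.cons.inj hy).2.symm

omit [DecidableEq V] in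
lemma paths_spec : ∀ {n : ℕ} {g : List (Fin K × Fin d)}, g ∈ paths n →
    (g.map Prod.fst).Nodup ∧ g.length = n
  | 0, g, hg => by simp [paths] at hg; simp [hg]
  | n + 1, g, hg => by
    obtain ⟨g', hg', x, hx, rfl⟩ := mem_paths_succ.1 hg
    obtain ⟨h1, h2⟩ := paths_spec hg'
    exact ⟨by rw [List.map_cons]; exact List.nodup_cons.2 ⟨(mem_filter.1 hx).2, h1⟩, by simp [h2]⟩

omit [DecidableEq V] in
lemma card_allowed {n : ℕ} {g : List (Fin K × Fin d)} (hg : g ∈ paths n) :
    (allowed g).card = (K - n) * d := by
  obtain ⟨h1, h2⟩ := paths_spec hg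
  have : allowed g = (univ \ (g.map Prod.fst).toFinset) ×ˢ (univ : Finset (Fin d)) := by
    ext x; simp [allowed]
  rw [this, card_product, card_sdiff_of_subset (subset_univ _), card_univ, Fintype.card_fin,
    List.toFinset_card_of_nodup h1, List.length_map, h2, card_univ, Fintype.card_fin]

omit [DecidableEq V] in
lemma st_of_notMem : ∀ {g : List (Fin K × Fin d)} {j : Fin K}, j ∉ g.map Prod.fst →
    st h nb g j = h j
  | [], j, _ => rfl
  | x :: g, j, hj => by
    simp only [List.map_cons, List.mem_cons, not_or] at hj
    rw [st, Function.update_of_ne hj.1, st_of_notMem hj.2]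

variable {h nb} (hnb : ∀ v c, nb v c ≠ v) (hinj : ∀ v, Function.Injective (nb v))

include hnb in
lemma chg_st : ∀ {n : ℕ} {g : List (Fin K × Fin d)}, g ∈ paths n →
    chg h (st h nb g) = (g.map Prod.fst).toFinset
  | 0, g, hg => by simp [paths] at hg; simp [hg, chg, st]
  | n + 1, g, hg => by
    obtain ⟨g', hg', x, hx, rfl⟩ := mem_paths_succ.1 hg
    ext j
    rw [chg, mem_filter]
    simp only [mem_univ, true_and, List.mem_toFinset, List.map_cons, List.mem_cons, st]
    by_cases hj : j = x.1
    · subst hj; simp [hnb]
    · have := Finset.ext_iff.1 (chg_st hg') j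
      rw [chg, mem_filter] at this
      simp only [mem_univ, true_and, List.mem_toFinset] at this
      rw [Function.update_of_ne hj]
      simp [this, hj]

include hnb in
lemma card_chg_st {n : ℕ} {g : List (Fin K × Fin d)} (hg : g ∈ paths n) :
    (chg h (st h nb g)).card = n := by
  obtain ⟨h1, h2⟩ := paths_spec hg
  rw [chg_st hnb hg, List.toFinset_card_of_nodup h1, List.length_map, h2]

include hnb hinj in
lemma step_inj {g : List (Fin K × Fin d)} {x y : Fin K × Fin d} (hx : x ∈ allowed g)
    (hxy : st h nb (x :: g) = st h nb (y :: g)) : x = y := by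
  have hx1 := st_of_notMem h nb (mem_filter.1 hx).2
  have := congrFun hxy x.1
  simp only [st, Function.update_self] at this
  by_cases h1 : x.1 = y.1
  · rw [← h1, Function.update_self] at this
    exact Prod.ext h1 (hinj _ this)
  · rw [Function.update_of_ne h1, hx1] at this
    exact absurd this (hnb _ _)

include hnb in
/-- An edge of a path is determined by its level. -/
lemma edge_level : ∀ {m : ℕ} {γ : List (Fin K × Fin d)}, γ ∈ paths m →
    ∀ {u v : Fin K → V} {n : ℕ}, s(u, v) ∈ pedges h nb γ → (chg h u).card = n →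
      (chg h v).card = n + 1 →
      n < m ∧ u = st h nb (γ.drop (m - n)) ∧ v = st h nb (γ.drop (m - (n + 1)))
  | 0, γ, hγ, u, v, n, he, _, _ => by simp [paths] at hγ; simp [hγ, pedges] at he
  | m + 1, γ, hγ, u, v, n, he, hu, hv => by
    obtain ⟨g, hg, x, hx, rfl⟩ := mem_paths_succ.1 hγ
    rcases mem_insert.1 he with he | he
    · have e0 := card_chg_st (h := h) hnb hg
      have e1 := card_chg_st (h := h) hnb hγ
      rcases Sym2.eq_iff.1 he with ⟨rfl, rfl⟩ | ⟨rfl, rfl⟩
      · obtain rfl : n = m := hu.symm.trans e0
        exact ⟨Nat.lt_succ_self _, by simp, by simp⟩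
      · omega
    · obtain ⟨hlt, h1, h2⟩ := edge_level hg he hu hv
      refine ⟨hlt.trans (Nat.lt_succ_self _), ?_, ?_⟩
      · rw [show m + 1 - n = (m - n) + 1 by omega, List.drop_succ_cons]; exact h1
      · rw [show m + 1 - (n + 1) = (m - (n + 1)) + 1 by omega, List.drop_succ_cons]; exact h2

include hnb in
lemma card_pedges : ∀ {n : ℕ} {g : List (Fin K × Fin d)}, g ∈ paths n →
    (pedges h nb g).card = n
  | 0, g, hg => by simp [paths] at hg; simp [hg, pedges]
  | n + 1, g, hg => by
    obtain ⟨g, hg', x, hx, rfl⟩ := mem_paths_succ.1 hg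
    rw [pedges, card_insert_of_notMem, card_pedges hg']
    intro he
    exact absurd (edge_level hnb hg' he (card_chg_st hnb hg') (card_chg_st hnb hg)).1
      (lt_irrefl n)

include hnb hinj in
/-- The weighted number of paths, compared with a fixed one, is comparable to their number. -/
theorem path_weight {L : ℕ} {γ : List (Fin K × Fin d)} (hγ : γ ∈ paths L) {r θ : ℝ} (hr : 1 ≤ r)
    (hθ : θ < 1) (hD : r + L ≤ θ * ((K - L : ℕ) * d : ℕ)) (m : ℕ) (hm : θ ^ L * r ^ m ≤ 1) :
    ∑ g ∈ paths L, r ^ ((pedges h nb g ∩ pedges h nb γ).card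
        + if st h nb g = st h nb γ then m else 0)
      ≤ (2 + 1 / (1 - θ)) * (paths (K := K) (d := d) L).card := by
  set A : ℕ → Fin K → V := fun i => st h nb (γ.drop (L - i)) with hA
  set c : List (Fin K × Fin d) → ℕ := fun g => (pedges h nb g ∩ pedges h nb γ).card with hc
  set D' : ℝ := (((K - L : ℕ) * d : ℕ) : ℝ) with hD'
  have hr0 : 0 < r := lt_of_lt_of_le one_pos hr
  have hL0 : (0 : ℝ) ≤ L := Nat.cast_nonneg L
  have hD0 : 0 < D' := by
    rcases (Nat.cast_nonneg (α := ℝ) ((K - L : ℕ) * d)).lt_or_eq with h0 | h0
    · exact h0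
    · rw [hD', ← h0, mul_zero] at hD; linarith
  have hθ0 : 0 < θ := pos_of_mul_pos_left (lt_of_lt_of_le (by linarith) hD) hD0.le
  -- the new edge
  have hnew : ∀ {n g x}, g ∈ paths n → x ∈ allowed g →
      c (x :: g) ≤ c g + if st h nb g = A n ∧ st h nb (x :: g) = A (n + 1) then 1 else 0 := by
    intro n g x hg hx
    simp only [hc, pedges]
    by_cases he : s(st h nb g, st h nb (x :: g)) ∈ pedges h nb γ
    · obtain ⟨-, h1, h2⟩ := edge_level hnb hγ he (card_chg_st hnb hg)
        (card_chg_st hnb (mem_paths_succ.2 ⟨g, hg, x, hx, rfl⟩))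
      rw [if_pos ⟨h1, h2⟩, insert_inter_of_mem he]
      exact card_insert_le _ _
    · rw [insert_inter_of_notMem he]
      exact Nat.le_add_right _ _
  -- paths with a given endpoint
  have hT : ∀ n ≤ L, ∀ w : Fin K → V,
      ∑ g ∈ paths n, (if st h nb g = w then r ^ c g else 0) ≤ (r + L) ^ n := by
    intro n
    induction n with
    | zero => intro _ w; simp [paths, hc, pedges]; split <;> norm_num
    | succ n ih =>
      intro hn w
      set J := (chg h w).image fun j => Function.update w j (h j) with hJ
      rw [sum_paths_succ]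
      by_cases hw : (chg h w).card = n + 1
      · have step : ∀ g ∈ paths n,
            ∑ x ∈ allowed g, (if st h nb (x :: g) = w then r ^ c (x :: g) else 0)
            ≤ ∑ v ∈ J, (if v = A n then r else 1) * if st h nb g = v then r ^ c g else 0 := by
          intro g hg
          by_cases hex : ∃ x ∈ allowed g, st h nb (x :: g) = w
          · obtain ⟨x, hx, hxw⟩ := hex
            rw [sum_eq_single_of_mem x hx fun y hy hyx => if_neg fun hyw =>
              hyx (step_inj hnb hinj hx (hxw.trans hyw.symm)).symm, if_pos hxw]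
            have hv : st h nb g ∈ J := by
              refine mem_image.2 ⟨x.1, ?_, ?_⟩
              · rw [← hxw, chg, mem_filter]; exact ⟨mem_univ _, by simp [st, hnb]⟩
              · have hx1 := st_of_notMem h nb (mem_filter.1 hx).2
                rw [← hxw, st, Function.update_idem, ← hx1, Function.update_eq_self]
            refine le_trans ?_ (single_le_sum
              (f := fun v => (if v = A n then r else 1) * if st h nb g = v then r ^ c g else 0)
              (fun v _ => by positivity) hv)
            simp only [↓reduceIte]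
            refine (pow_le_pow_right₀ hr (hnew hg hx)).trans ?_
            rw [pow_add, mul_comm]
            refine mul_le_mul_of_nonneg_right ?_ (by positivity)
            by_cases h1 : st h nb g = A n
            · rw [if_pos h1]; split <;> simp [hr]
            · simp [h1]
          · rw [sum_eq_zero fun x hx => if_neg fun hxw => hex ⟨x, hx, hxw⟩]
            exact sum_nonneg fun v _ => by positivity
        refine (sum_le_sum step).trans ?_
        rw [sum_comm]
        simp only [← mul_sum]
        calc ∑ v ∈ J, (if v = A n then r else 1)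
              * ∑ g ∈ paths n, (if st h nb g = v then r ^ c g else 0)
            ≤ ∑ v ∈ J, (if v = A n then r else 1) * (r + L) ^ n :=
              sum_le_sum fun v _ => mul_le_mul_of_nonneg_left (ih (by omega) v) (by positivity)
          _ ≤ (r + L) * (r + L) ^ n := by
              rw [← sum_mul]
              refine mul_le_mul_of_nonneg_right ?_ (by positivity)
              calc ∑ v ∈ J, (if v = A n then r else 1)
                  ≤ ∑ v ∈ J, ((if v = A n then r else 0) + 1) :=
                    sum_le_sum fun v _ => by split <;> linarith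
                _ ≤ r + L := by
                    rw [sum_add_distrib, sum_const, nsmul_one, sum_ite_eq']
                    refine add_le_add (by split <;> linarith) ?_
                    exact_mod_cast card_image_le.trans (hw.le.trans hn)
          _ = (r + L) ^ (n + 1) := by ring
      · rw [sum_eq_zero fun g hg => sum_eq_zero fun x hx => if_neg fun hxw => hw ?_]
        · positivity
        · rw [← hxw, card_chg_st hnb (mem_paths_succ.2 ⟨g, hg, x, hx, rfl⟩)]
  -- number of paths
  have hN : ∀ n, ((paths (K := K) (d := d) (n + 1)).card : ℝ)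
      = (paths (K := K) (d := d) n).card * ((K - n : ℕ) * d : ℕ) := fun n => by
    have := sum_paths_succ (K := K) (d := d) n fun _ => 1
    simp only [sum_const, nsmul_one] at this
    rw [this, sum_congr rfl fun g hg => by rw [card_allowed hg], sum_const, nsmul_eq_mul]
  have hNpow : ∀ n ≤ L, D' ^ n ≤ (paths (K := K) (d := d) n).card := by
    intro n
    induction n with
    | zero => intro _; simp [paths]
    | succ n ih =>
      intro hn
      rw [hN, pow_succ]
      exact mul_le_mul (ih (by omega)) (Nat.cast_le.2 (Nat.mul_le_mul_right d (by omega))) hD0.le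
        (Nat.cast_nonneg _)
  have hU : ∀ n ≤ L, ∑ g ∈ paths n, r ^ c g
      ≤ (paths (K := K) (d := d) n).card * (1 + ∑ i ∈ range n, θ ^ i) := by
    intro n
    induction n with
    | zero => intro _; simp [paths, hc, pedges]
    | succ n ih =>
      intro hn
      rw [sum_paths_succ]
      have step : ∀ g ∈ paths n, ∑ x ∈ allowed g, r ^ c (x :: g)
          ≤ r ^ c g * ((K - n : ℕ) * d : ℕ) + r * if st h nb g = A n then r ^ c g else 0 := by
        intro g hg
        calc ∑ x ∈ allowed g, r ^ c (x :: g)
            ≤ ∑ x ∈ allowed g, (r ^ c g + r ^ c g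
                * if st h nb g = A n ∧ st h nb (x :: g) = A (n + 1) then r else 0) := by
              refine sum_le_sum fun x hx => (pow_le_pow_right₀ hr (hnew hg hx)).trans ?_
              split_ifs
              · rw [pow_succ]; nlinarith [pow_pos hr0 (c g)]
              · simp
          _ ≤ _ := by
              rw [sum_add_distrib, sum_const, card_allowed hg, nsmul_eq_mul, mul_comm, ← mul_sum]
              refine add_le_add le_rfl ?_
              by_cases h1 : st h nb g = A n
              · simp only [h1, true_and, ↓reduceIte]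
                rw [mul_comm r]
                refine mul_le_mul_of_nonneg_left ?_ (by positivity)
                rw [← sum_filter, sum_const, nsmul_eq_mul]
                refine mul_le_of_le_one_left hr0.le (Nat.cast_le_one.2 (card_le_one.2 ?_))
                intro x hx y hy
                exact step_inj hnb hinj (mem_filter.1 hx).1
                  ((mem_filter.1 hx).2.trans (mem_filter.1 hy).2.symm)
              · simp [h1]
      refine (sum_le_sum step).trans ?_
      rw [sum_add_distrib, ← sum_mul, ← mul_sum, hN, sum_range_succ, ← add_assoc, mul_add]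
      refine add_le_add ?_ ?_
      · exact (mul_le_mul_of_nonneg_right (ih (by omega)) (Nat.cast_nonneg _)).trans_eq (by ring)
      · calc r * ∑ g ∈ paths n, (if st h nb g = A n then r ^ c g else 0)
            ≤ (θ * D') * (θ * D') ^ n :=
              mul_le_mul (by linarith) ((hT n (by omega) _).trans
                (pow_le_pow_left₀ (by linarith) hD n))
                (sum_nonneg fun g _ => by positivity) (by positivity)
          _ = θ * (θ ^ n * D' ^ (n + 1)) := by ring
          _ ≤ 1 * (θ ^ n * D' ^ (n + 1)) := mul_le_mul_of_nonneg_right hθ.le (by positivity)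
          _ ≤ _ := by
              rw [one_mul, mul_comm, ← hN]
              exact mul_le_mul_of_nonneg_right (hNpow (n + 1) hn) (by positivity)
  have hgeo : ∑ i ∈ range L, θ ^ i ≤ 1 / (1 - θ) := by
    rw [one_div]
    exact sum_le_hasSum _ (fun i _ => by positivity) (hasSum_geometric_of_lt_one hθ0.le hθ)
  calc ∑ g ∈ paths L, r ^ (c g + if st h nb g = st h nb γ then m else 0)
      ≤ ∑ g ∈ paths L, (r ^ c g + r ^ m * if st h nb g = st h nb γ then r ^ c g else 0) := by
        refine sum_le_sum fun g _ => ?_
        split_ifs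
        · rw [pow_add, mul_comm (r ^ m)]; linarith [pow_pos hr0 (c g)]
        · simp
    _ = (∑ g ∈ paths L, r ^ c g)
          + r ^ m * ∑ g ∈ paths L, (if st h nb g = st h nb γ then r ^ c g else 0) := by
        rw [sum_add_distrib, ← mul_sum]
    _ ≤ (paths (K := K) (d := d) L).card * (1 + 1 / (1 - θ)) + (paths (K := K) (d := d) L).card := by
        refine add_le_add ((hU L le_rfl).trans (mul_le_mul_of_nonneg_left (by linarith)
          (Nat.cast_nonneg _))) ?_
        calc r ^ m * ∑ g ∈ paths L, (if st h nb g = st h nb γ then r ^ c g else 0)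
            ≤ r ^ m * (θ * D') ^ L := mul_le_mul_of_nonneg_left
              ((hT L le_rfl _).trans (pow_le_pow_left₀ (by linarith) hD L)) (by positivity)
          _ = (θ ^ L * r ^ m) * D' ^ L := by ring
          _ ≤ 1 * D' ^ L := mul_le_mul_of_nonneg_right hm (by positivity)
          _ ≤ _ := by rw [one_mul]; exact hNpow L le_rfl
    _ = _ := by ring

end Vale.Agent.P165
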