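import Mathlib
import Vale.Agent.P165.Defs

/-!
A branching family in a nonamenable graph and connectors with disjoint supports.
-/

namespace Vale.Agent.P165

open Finset

variable {V : Type}

/-- Finite sets grown `n` times by their neighbours. -/
def grow [DecidableEq V] (G : SimpleGraph V) [G.LocallyFinite] (S : Finset V) : ℕ → Finset V
  | 0 => S
  | n + 1 => grow G S n ∪ (grow G S n).biUnion (G.neighborFinset ·)

/-- Each vertex gets `b` children nearby, all distinct, none equal to the root. -/
theorem exists_children {G : SimpleGraph V} [G.LocallyFinite] {h : ℝ} (hh : 0 < h)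
    (hiso : ∀ S : Finset V, h * S.card ≤ {v | v ∉ S ∧ ∃ a ∈ S, G.Adj a v}.ncard) (o : V) (b : ℕ) :
    ∃ (ℓ : ℕ) (F : V × Fin b → V), Function.Injective F ∧ (∀ x, F x ≠ o) ∧
      ∀ x, ∃ q : G.Walk x.1 (F x), q.length ≤ ℓ := by
  classical
  obtain ⟨ℓ, hℓ⟩ := pow_unbounded_of_one_lt (b + 1 : ℝ) (show 1 < 1 + h by linarith)
  have hgrow : ∀ (S : Finset V) n, (1 + h) ^ n * S.card ≤ (grow G S n).card := by
    intro S n
    induction n with
    | zero => simp [grow]
    | succ n ih =>
      set B := grow G S n with hB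
      have hb : {v | v ∉ B ∧ ∃ a ∈ B, G.Adj a v}
          = ↑((B.biUnion (G.neighborFinset ·)) \ B) := by
        ext v
        simp [and_comm]
      have := hiso B
      rw [hb, Set.ncard_coe_finset] at this
      have hc : (grow G S (n + 1)).card = B.card + (B.biUnion (G.neighborFinset ·) \ B).card := by
        rw [grow, ← hB, ← card_union_of_disjoint disjoint_sdiff, union_sdiff_self_eq_union]
      rw [hc, Nat.cast_add, pow_succ']
      calc (1 + h) * (1 + h) ^ n * S.card = (1 + h) * ((1 + h) ^ n * S.card) := by ring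
        _ ≤ (1 + h) * B.card := mul_le_mul_of_nonneg_left ih (by linarith)
        _ ≤ _ := by linarith
  have hwalk : ∀ (S : Finset V) n, ∀ v ∈ grow G S n, ∃ a ∈ S, ∃ q : G.Walk a v, q.length ≤ n := by
    intro S n
    induction n with
    | zero => intro v hv; exact ⟨v, hv, .nil, le_rfl⟩
    | succ n ih =>
      intro v hv
      rcases mem_union.1 hv with hv | hv
      · obtain ⟨a, ha, q, hq⟩ := ih v hv
        exact ⟨a, ha, q, hq.trans (Nat.le_succ n)⟩
      · obtain ⟨w, hw, hwv⟩ := mem_biUnion.1 hv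
        obtain ⟨a, ha, q, hq⟩ := ih w hw
        exact ⟨a, ha, q.concat (by simpa using hwv), by simp [hq]⟩
  let t : (V × Fin b) ⊕ Unit → Finset V := Sum.elim (fun x => grow G {x.1} ℓ) fun _ => {o}
  obtain ⟨f, hf, hft⟩ := (all_card_le_biUnion_card_iff_exists_injective t).1 fun s => by
    set S := s.toLeft.image Prod.fst with hS
    rcases S.eq_empty_or_nonempty with hSe | hne
    · have hl : s.toLeft = ∅ := image_eq_empty.1 hSe
      have hs := card_toLeft_add_card_toRight (u := s)
      rw [hl, card_empty, zero_add] at hs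
      rw [← hs]
      rcases s.toRight.eq_empty_or_nonempty with hr | ⟨⟨⟩, hr⟩
      · simp [hr]
      · exact (card_le_univ _).trans (card_pos.2
          ⟨o, mem_biUnion.2 ⟨.inr (), mem_toRight.1 hr, by simp [t]⟩⟩)
    · have hsub : grow G S ℓ ⊆ s.biUnion t := by
        intro v hv
        obtain ⟨a, ha, q, hq⟩ := hwalk S ℓ v hv
        obtain ⟨x, hx, rfl⟩ := mem_image.1 ha
        refine mem_biUnion.2 ⟨.inl x, mem_toLeft.1 hx, ?_⟩
        have key : ∀ {c d : V} (r : G.Walk c d) (i : ℕ), c ∈ grow G {x.1} i →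
            d ∈ grow G {x.1} (i + r.length) := by
          intro c d r
          induction r with
          | nil => intro i hi; simpa using hi
          | @cons c e d h' r ih =>
            intro i hi
            have := ih (i + 1) (mem_union_right _ (mem_biUnion.2 ⟨c, hi, by simpa using h'⟩))
            rwa [add_assoc, add_comm 1] at this
        have hm : Monotone (grow G {x.1}) :=
          monotone_nat_of_le_succ fun _ => subset_union_left
        exact hm hq (by simpa using key q 0 (by simp [grow]))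
      have h1 : s.card ≤ b * S.card + 1 := by
        rw [← card_toLeft_add_card_toRight (u := s)]
        refine add_le_add ?_ (card_le_univ _)
        refine (card_le_card (fun x hx => ?_ : s.toLeft ⊆ S ×ˢ univ)).trans
          (by rw [card_product, card_univ, Fintype.card_fin, mul_comm])
        exact mem_product.2 ⟨mem_image_of_mem _ hx, mem_univ _⟩
      have h2 : ((b * S.card + 1 : ℕ) : ℝ) ≤ (grow G S ℓ).card := by
        refine le_trans ?_ (hgrow S ℓ)
        have : (1 : ℝ) ≤ S.card := Nat.one_le_cast.2 hne.card_pos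
        push_cast
        nlinarith
      exact h1.trans ((Nat.cast_le.1 h2).trans (card_le_card hsub))
  have ho : f (.inr ()) = o := by simpa [t] using hft (.inr ())
  refine ⟨ℓ, fun x => f (.inl x), fun x y hxy => Sum.inl.inj (hf hxy), fun x hx => ?_, fun x => ?_⟩
  · exact Sum.inl_ne_inr (hf (hx.trans ho.symm))
  · obtain ⟨a, ha, q, hq⟩ := hwalk {x.1} ℓ _ (hft (.inl x))
    obtain rfl : a = x.1 := mem_singleton.1 ha
    exact ⟨q, hq⟩

/-- Coordinates reserved for connectors: two base coordinates and two tags for each child. -/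
abbrev Aux (b : ℕ) : Type := Bool ⊕ (Fin b × Bool)

/-- The reserved coordinates at a node. -/
def node {b : ℕ} (o z : V) : Aux b → V := Sum.elim (fun _ => z) fun _ => o

/-- The pair `(y, y')` carries the signature of the connector from `z` to its child `c` of
index `i`. -/
def Sig {b : ℕ} (o z c : V) (i : Fin b) (y y' : Aux b → V) : Prop :=
  (∀ j, j ≠ i → ∀ s, y (.inr (j, s)) = o ∧ y' (.inr (j, s)) = o) ∧
  (∃ s, y (.inr (i, s)) ≠ o ∨ y' (.inr (i, s)) ≠ o) ∧
  ((y (.inl true) = z ∧ y' (.inl true) = z ∧ y (.inr (i, true)) = o ∧ y' (.inr (i, true)) = o) ∨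
    (y (.inl false) = c ∧ y' (.inl false) = c ∧
      ((y (.inr (i, true)) ≠ o ∨ y' (.inr (i, true)) ≠ o) ∨ y (.inl true) ≠ y' (.inl true))))

lemma Sig.symm {b : ℕ} {o z c : V} {i : Fin b} {y y' : Aux b → V} (h : Sig o z c i y y') :
    Sig o z c i y' y := by
  obtain ⟨h1, ⟨s, h2⟩, h3⟩ := h
  refine ⟨fun j hj s => (h1 j hj s).symm, ⟨s, h2.symm⟩, ?_⟩
  rcases h3 with ⟨a1, a2, a3, a4⟩ | ⟨a1, a2, a3⟩
  · exact .inl ⟨a2, a1, a4, a3⟩
  · exact .inr ⟨a2, a1, a3.imp Or.symm Ne.symm⟩

lemma Sig.unique {b : ℕ} {o z c z' c' : V} {i j : Fin b} {y y' : Aux b → V}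
    (h : Sig o z c i y y') (h' : Sig o z' c' j y y') : i = j ∧ (z = z' ∨ c = c') := by
  obtain rfl : i = j := by
    by_contra hij
    obtain ⟨s, hs⟩ := h.2.1
    obtain ⟨e1, e2⟩ := h'.1 i hij s
    exact hs.elim (· e1) (· e2)
  refine ⟨rfl, ?_⟩
  rcases h.2.2 with ⟨a1, a2, a3, a4⟩ | ⟨a1, a2, a3⟩ <;>
    rcases h'.2.2 with ⟨b1, b2, b3, b4⟩ | ⟨b1, b2, b3⟩
  · exact .inl (a1.symm.trans b1)
  · rcases b3 with (b3 | b3) | b3
    exacts [absurd a3 b3, absurd a4 b3, absurd (a1.trans a2.symm) b3]
  · rcases a3 with (a3 | a3) | a3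
    exacts [absurd b3 a3, absurd b4 a3, absurd (b1.trans b2.symm) a3]
  · exact .inr (a1.symm.trans b1)

/-- `y` and `y'` are joined by at most `n` edges, all satisfying `P`. -/
def Joined {Y : Type} (H : SimpleGraph Y) (P : Y → Y → Prop) (n : ℕ) (y y' : Y) : Prop :=
  ∃ Es : Finset (Sym2 Y), Es.card ≤ n ∧
    (∀ e ∈ Es, ∃ u v, e = s(u, v) ∧ H.Adj u v ∧ P u v) ∧
    ∀ H' : SimpleGraph Y, (∀ u v, H.Adj u v → s(u, v) ∈ Es → H'.Adj u v) → H'.Reachable y y'

lemma joined_refl {Y : Type} (H : SimpleGraph Y) (P : Y → Y → Prop) (n : ℕ) (y : Y) :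
    Joined H P n y y :=
  ⟨∅, by simp, by simp, fun _ _ => SimpleGraph.Reachable.refl _⟩

lemma joined_step {Y : Type} {H : SimpleGraph Y} {P : Y → Y → Prop} {y y' : Y} (h : H.Adj y y')
    (hP : P y y') : Joined H P 1 y y' := by
  classical
  refine ⟨{s(y, y')}, by simp, ?_, fun H' h' => (h' y y' h (by simp)).reachable⟩
  intro e he
  exact ⟨y, y', mem_singleton.1 he, h, hP⟩

lemma Joined.trans {Y : Type} {H : SimpleGraph Y} {P : Y → Y → Prop} {n m : ℕ} {a b c : Y}
    (h : Joined H P n a b) (h' : Joined H P m b c) : Joined H P (n + m) a c := by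
  classical
  obtain ⟨E, hE, hEP, hER⟩ := h
  obtain ⟨F, hF, hFP, hFR⟩ := h'
  refine ⟨E ∪ F, (card_union_le _ _).trans (add_le_add hE hF), fun e he => ?_, fun H' h' => ?_⟩
  · exact (mem_union.1 he).elim (hEP e) (hFP e)
  · exact (hER H' fun u v a m => h' u v a (mem_union_left _ m)).trans
      (hFR H' fun u v a m => h' u v a (mem_union_right _ m))

lemma Joined.mono {Y : Type} {H : SimpleGraph Y} {P : Y → Y → Prop} {n m : ℕ} {a b : Y}
    (h : Joined H P n a b) (hnm : n ≤ m) : Joined H P m a b :=
  let ⟨E, hE, h1, h2⟩ := h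
  ⟨E, hE.trans hnm, h1, h2⟩

lemma adj_update {G : SimpleGraph V} {ι : Type} [DecidableEq ι] (y : ι → V) (A : ι) {v w : V}
    (h : G.Adj v w) :
    (powGraph G ι).Adj (Function.update y A v) (Function.update y A w) :=
  ⟨A, by simpa using h, fun j hj => by
    rw [Function.update_of_ne hj, Function.update_of_ne hj]⟩

lemma joined_walk {G : SimpleGraph V} {ι : Type} [DecidableEq ι] {P : (ι → V) → (ι → V) → Prop}
    (y : ι → V) (A : ι) :
    ∀ {v w : V} (q : G.Walk v w),
      (∀ v w, G.Adj v w → P (Function.update y A v) (Function.update y A w)) →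
      Joined (powGraph G ι) P q.length (Function.update y A v) (Function.update y A w)
  | _, _, .nil, _ => joined_refl _ _ _ _
  | _, _, .cons h q, hP => by
    have := (joined_step (adj_update y A h) (hP _ _ h)).trans (joined_walk y A q hP)
    rwa [add_comm] at this

/-- Reserved coordinates with values `p, q` at the base and `r, t` at the tags of child `i`. -/
def aux {b : ℕ} (o : V) (i : Fin b) (p q r t : V) : Aux b → V
  | .inl s => cond s q p
  | .inr (j, s) => if j = i then cond s t r else o

lemma aux_node {b : ℕ} (o z : V) (i : Fin b) : aux o i z z o o = node o z := by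
  funext j
  rcases j with (_ | _) | ⟨k, _ | _⟩ <;> simp [aux, node]

lemma update_aux {b : ℕ} (o : V) (i : Fin b) (p q r t v : V) :
    Function.update (aux o i p q r t) (.inl false) v = aux o i v q r t ∧
    Function.update (aux o i p q r t) (.inl true) v = aux o i p v r t ∧
    Function.update (aux o i p q r t) (.inr (i, false)) v = aux o i p q v t ∧
    Function.update (aux o i p q r t) (.inr (i, true)) v = aux o i p q r v := by
  refine ⟨?_, ?_, ?_, ?_⟩
  all_goals
    funext j
    rw [Function.update_apply]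
    rcases j with (_ | _) | ⟨k, _ | _⟩
    any_goals (simp [aux]; done)
    all_goals (by_cases hk : k = i <;> simp [aux, hk])

/-- A connector from a node to a child. -/
theorem exists_connector {G : SimpleGraph V} {b : ℕ} {o a z c : V} (ha : G.Adj o a)
    {ℓ : ℕ} (q : G.Walk z c) (hq : q.length ≤ ℓ) (i : Fin b) :
    Joined (powGraph G (Aux b)) (Sig o z c i) (2 * ℓ + 4) (node o z) (node o c) := by
  classical
  have hao : a ≠ o := ha.ne.symm
  have tag : ∀ p q r t : V, ∀ j, j ≠ i → ∀ s, aux o i p q r t (.inr (j, s)) = o :=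
    fun p q r t j hj s => by simp [aux, hj]
  have u1 := fun p q r t v => (update_aux o i p q r t v).1
  have u2 := fun p q r t v => (update_aux o i p q r t v).2.1
  have u3 := fun p q r t v => (update_aux o i p q r t v).2.2.1
  have u4 := fun p q r t v => (update_aux o i p q r t v).2.2.2
  have s1 : Joined (powGraph G (Aux b)) (Sig o z c i) 1 (aux o i z z o o) (aux o i z z a o) := by
    refine joined_step ?_ ⟨fun j hj s => ⟨tag _ _ _ _ j hj s, tag _ _ _ _ j hj s⟩,
      ⟨false, .inr (by simpa [aux] using hao)⟩, .inl (by simp [aux])⟩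
    have := adj_update (aux o i z z o o) (.inr (i, false)) ha
    rwa [u3, u3] at this
  have s2 : Joined (powGraph G (Aux b)) (Sig o z c i) ℓ (aux o i z z a o) (aux o i c z a o) := by
    have := joined_walk (P := Sig o z c i) (aux o i z z a o) (.inl false) q fun v w _ => by
      rw [u1, u1]
      exact ⟨fun j hj s => ⟨tag _ _ _ _ j hj s, tag _ _ _ _ j hj s⟩,
        ⟨false, .inl (by simpa [aux] using hao)⟩, .inl (by simp [aux])⟩
    rw [u1, u1] at this
    exact this.mono hq
  have s3 : Joined (powGraph G (Aux b)) (Sig o z c i) ℓ (aux o i c z a o) (aux o i c c a o) := by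
    have := joined_walk (P := Sig o z c i) (aux o i c z a o) (.inl true) q fun v w hvw => by
      rw [u2, u2]
      exact ⟨fun j hj s => ⟨tag _ _ _ _ j hj s, tag _ _ _ _ j hj s⟩,
        ⟨false, .inl (by simpa [aux] using hao)⟩,
        .inr ⟨rfl, rfl, .inr (by simpa [aux] using hvw.ne)⟩⟩
    rw [u2, u2] at this
    exact this.mono hq
  have s4 : Joined (powGraph G (Aux b)) (Sig o z c i) 1 (aux o i c c a o) (aux o i c c a a) := by
    refine joined_step ?_ ⟨fun j hj s => ⟨tag _ _ _ _ j hj s, tag _ _ _ _ j hj s⟩,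
      ⟨true, .inr (by simpa [aux] using hao)⟩,
      .inr ⟨rfl, rfl, .inl (.inr (by simpa [aux] using hao))⟩⟩
    have := adj_update (aux o i c c a o) (.inr (i, true)) ha
    rwa [u4, u4] at this
  have s5 : Joined (powGraph G (Aux b)) (Sig o z c i) 1 (aux o i c c a a) (aux o i c c o a) := by
    refine joined_step ?_ ⟨fun j hj s => ⟨tag _ _ _ _ j hj s, tag _ _ _ _ j hj s⟩,
      ⟨true, .inr (by simpa [aux] using hao)⟩,
      .inr ⟨rfl, rfl, .inl (.inr (by simpa [aux] using hao))⟩⟩
    have := adj_update (aux o i c c a a) (.inr (i, false)) ha.symm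
    rwa [u3, u3] at this
  have s6 : Joined (powGraph G (Aux b)) (Sig o z c i) 1 (aux o i c c o a) (aux o i c c o o) := by
    refine joined_step ?_ ⟨fun j hj s => ⟨tag _ _ _ _ j hj s, tag _ _ _ _ j hj s⟩,
      ⟨true, .inl (by simpa [aux] using hao)⟩,
      .inr ⟨rfl, rfl, .inl (.inl (by simpa [aux] using hao))⟩⟩
    have := adj_update (aux o i c c o a) (.inr (i, true)) ha.symm
    rwa [u4, u4] at this
  rw [← aux_node o z i, ← aux_node o c i]
  exact ((((s1.trans s2).trans s3).trans s4).trans (s5.trans s6)).mono (by omega)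

end Vale.Agent.P165
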