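import Mathlib
import Vale.Agent.P165.Basic
import Vale.Agent.P165.Moment
import Vale.Agent.P165.Tree

/-!
An infinite open tree of fibres.
-/

namespace Vale.Agent.P165

open MeasureTheory Finset

variable {W : Type} {p : unitInterval}

lemma real_biInter_compl {J : Type} [DecidableEq J] [DecidableEq (Sym2 W)] (R : J → Set (Sym2 W → Bool))
    (D : J → Finset (Sym2 W)) (hR : ∀ i, Dep (R i) (D i))
    (hD : ∀ i j, i ≠ j → Disjoint (D i) (D j)) (s : Finset J) :
    Dep (⋂ i ∈ s, (R i)ᶜ) (s.biUnion D) ∧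
      (perc W p).real (⋂ i ∈ s, (R i)ᶜ) = ∏ i ∈ s, (1 - (perc W p).real (R i)) := by
  induction s using Finset.induction with
  | empty =>
    refine ⟨fun _ _ _ h => by simp, by simp⟩
  | @insert a s ha ih =>
    rw [Finset.set_biInter_insert, prod_insert ha, biUnion_insert]
    have hdisj : Disjoint (D a) (s.biUnion D) :=
      (disjoint_biUnion_right _ _ _).2 fun i hi => hD a i fun h => ha (h ▸ hi)
    refine ⟨((hR a).compl.mono subset_union_left).inter (ih.1.mono subset_union_right), ?_⟩
    rw [real_inter_of_disjoint (hR a).compl ih.1 hdisj, ih.2,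
      measureReal_compl (hR a).measurableSet, probReal_univ]

/-- One step of the recursion. -/
theorem step_bound {b : ℕ} {Γ : Type} (P : Finset Γ) [DecidableEq (Sym2 W)]
    (L R : Fin b → Γ → Set (Sym2 W → Bool)) (C₀ : Finset (Sym2 W))
    (D : Fin b → Finset (Sym2 W)) (hL : ∀ i, ∀ g ∈ P, Dep (L i g) C₀)
    (hR : ∀ i, ∀ g ∈ P, Dep (R i g) (D i)) (hD0 : ∀ i, Disjoint C₀ (D i))
    (hD : ∀ i j, i ≠ j → Disjoint (D i) (D j)) {q : ℝ} (hq : 0 ≤ q) (hq1 : q ≤ 1)
    (hb : 8 ≤ b * q ^ 2) (hLq : ∀ i, q ≤ (perc W p).real (⋃ g ∈ P, L i g))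
    (hRq : ∀ i, ∀ g ∈ P, q / 4 ≤ (perc W p).real (R i g)) :
    q / 4 ≤ (perc W p).real (⋃ i : Fin b, ⋃ g ∈ P, L i g ∩ R i g) := by
  classical
  set μ := perc W p with hμ
  set U := ⋃ i : Fin b, ⋃ g ∈ P, L i g ∩ R i g with hU
  have hUm : MeasurableSet U := MeasurableSet.iUnion fun i => Finset.measurableSet_biUnion P
    fun g hg => (hL i g hg).measurableSet.inter (hR i g hg).measurableSet
  let cyl : (C₀ → Bool) → Set (Sym2 W → Bool) := fun π => {ω | C₀.restrict ω = π}
  have hcd : ∀ π, Dep (cyl π) C₀ := fun π ω ω' he h => by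
    funext e
    exact (he e e.2).symm.trans (congrFun h e)
  have hcm : ∀ π, MeasurableSet (cyl π) := fun π => (hcd π).measurableSet
  have hsum1 : ∑ π, μ.real (cyl π) = 1 := by
    have h := measureReal_iUnion_fintype (μ := μ) (f := cyl)
      (fun a b hab => Set.disjoint_left.2 fun ω h1 h2 => hab (h1.symm.trans h2)) hcm
    rw [← h, Set.eq_univ_of_forall (s := ⋃ π, cyl π) fun ω => Set.mem_iUnion.2 ⟨C₀.restrict ω, rfl⟩,
      probReal_univ]
  let good : (C₀ → Bool) → Fin b → Prop := fun π i => ∃ g ∈ P, cyl π ⊆ L i g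
  let J : (C₀ → Bool) → Finset (Fin b) := fun π => univ.filter (good π)
  let f : ℝ := q / 4
  have hf0 : 0 ≤ f := by positivity
  -- failure inside one pattern
  have hfail : ∀ π, μ.real (cyl π \ U) ≤ μ.real (cyl π) * (1 - f) ^ (J π).card := by
    intro π
    have hch : ∀ i ∈ J π, ∃ g ∈ P, cyl π ⊆ L i g := fun i hi => (mem_filter.1 hi).2
    let R' : Fin b → Set (Sym2 W → Bool) := fun i => if h : i ∈ J π then R i (hch i h).choose else ∅
    have hR' : ∀ i, Dep (R' i) (D i) := fun i => by
      by_cases h : i ∈ J π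
      · simp only [R', dif_pos h]; exact hR i _ (hch i h).choose_spec.1
      · simp only [R', dif_neg h]; exact fun _ _ _ h => h
    obtain ⟨hdep, hval⟩ := real_biInter_compl (p := p) R' D hR' hD (J π)
    calc μ.real (cyl π \ U) ≤ μ.real (cyl π ∩ ⋂ i ∈ J π, (R' i)ᶜ) := by
          refine measureReal_mono fun ω hω => ⟨hω.1, Set.mem_iInter₂.2 fun i hi hr => hω.2 ?_⟩
          simp only [R', dif_pos hi] at hr
          exact Set.mem_iUnion.2 ⟨i, Set.mem_biUnion (hch i hi).choose_spec.1
            ⟨(hch i hi).choose_spec.2 hω.1, hr⟩⟩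
      _ = μ.real (cyl π) * ∏ i ∈ J π, (1 - μ.real (R' i)) := by
          rw [real_inter_of_disjoint (hcd π) hdep
            ((disjoint_biUnion_right _ _ _).2 fun i _ => hD0 i), hval]
      _ ≤ _ := by
          refine mul_le_mul_of_nonneg_left ?_ measureReal_nonneg
          rw [← prod_const]
          refine prod_le_prod (fun i _ => sub_nonneg.2 measureReal_le_one) fun i hi => ?_
          simp only [R', dif_pos hi]
          simp only [f]
          linarith [hRq i _ (hch i hi).choose_spec.1]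
  -- many reached children
  have hcover : ∀ i, q ≤ ∑ π, μ.real (cyl π) * if good π i then 1 else 0 := by
    intro i
    simp only [mul_ite, mul_one, mul_zero]
    refine (hLq i).trans (le_trans (measureReal_mono (fun ω hω => ?_) (measure_ne_top _ _))
      ((measureReal_biUnion_finset_le (μ := μ) (univ.filter fun π => good π i) cyl).trans_eq
        (sum_filter _ _)))
    obtain ⟨g, hg, hωg⟩ := Set.mem_iUnion₂.1 hω
    refine Set.mem_biUnion (mem_filter.2 ⟨mem_univ (C₀.restrict ω), g, hg, fun ω' hω' => ?_⟩) rfl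
    exact hL i g hg ω ω' (fun e he => (congrFun hω' ⟨e, he⟩).symm) hωg
  have hmean : b * q ≤ ∑ π, μ.real (cyl π) * (J π).card := by
    have := card_nsmul_le_sum univ (fun i => ∑ π, μ.real (cyl π) * if good π i then 1 else 0) q
      fun i _ => hcover i
    rw [card_univ, Fintype.card_fin, nsmul_eq_mul, sum_comm] at this
    refine this.trans (le_of_eq (sum_congr rfl fun π _ => ?_))
    rw [← mul_sum, sum_boole]
  have hbig : q / 2 ≤ ∑ π, μ.real (cyl π) * if (b * q / 2 : ℝ) ≤ (J π).card then 1 else 0 := by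
    have : ∑ π, μ.real (cyl π) * (J π).card
        ≤ ∑ π, μ.real (cyl π) * (b * q / 2 + b * if (b * q / 2 : ℝ) ≤ (J π).card then 1 else 0) := by
      refine sum_le_sum fun π _ => mul_le_mul_of_nonneg_left ?_ measureReal_nonneg
      have hc : ((J π).card : ℝ) ≤ b := by
        exact_mod_cast (card_le_univ _).trans (Fintype.card_fin b).le
      split_ifs with h
      · nlinarith
      · linarith [not_le.1 h]
    simp only [mul_add, sum_add_distrib, ← sum_mul, hsum1, one_mul, mul_left_comm _ (b : ℝ),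
      ← mul_sum] at this
    have hb0 : (0 : ℝ) < b := by nlinarith
    nlinarith
  have hpow : ∀ π, (1 - f) ^ (J π).card
      ≤ 1 - (if (b * q / 2 : ℝ) ≤ (J π).card then 1 else 0) / 2 := by
    intro π
    set j := (J π).card
    split_ifs with h
    · have h1 : (1 - f) ^ j * (1 + j * f) ≤ 1 := by
        calc (1 - f) ^ j * (1 + j * f) ≤ (1 - f) ^ j * (1 + f) ^ j := by
              refine mul_le_mul_of_nonneg_left (one_add_mul_le_pow (by linarith) j)
                (pow_nonneg (by simp only [f]; linarith) j)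
          _ = (1 - f ^ 2) ^ j := by rw [← mul_pow]; ring
          _ ≤ 1 := pow_le_one₀ (by simp only [f]; nlinarith) (by nlinarith)
      have h2 : 1 ≤ j * f := by
        calc (1 : ℝ) ≤ b * q / 2 * f := by simp only [f]; nlinarith
          _ ≤ _ := mul_le_mul_of_nonneg_right h hf0
      nlinarith [pow_nonneg (by simp only [f]; linarith : (0 : ℝ) ≤ 1 - f) j]
    · simpa using pow_le_one₀ (by simp only [f]; linarith) (by linarith)
  have hc : μ.real Uᶜ ≤ 1 - q / 4 := by
    calc μ.real Uᶜ ≤ μ.real (⋃ π ∈ (univ : Finset (C₀ → Bool)), cyl π \ U) :=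
          measureReal_mono (fun ω hω => Set.mem_biUnion (mem_univ (C₀.restrict ω)) ⟨rfl, hω⟩)
            (measure_ne_top _ _)
      _ ≤ ∑ π, μ.real (cyl π \ U) := measureReal_biUnion_finset_le _ _
      _ ≤ ∑ π, μ.real (cyl π) * (1 - (if (b * q / 2 : ℝ) ≤ (J π).card then 1 else 0) / 2) :=
          sum_le_sum fun π _ => (hfail π).trans
            (mul_le_mul_of_nonneg_left (hpow π) measureReal_nonneg)
      _ ≤ _ := by
          simp only [mul_sub, sum_sub_distrib, mul_one, hsum1, mul_div_assoc', ← sum_div]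
          linarith
  rw [measureReal_compl hUm, probReal_univ] at hc
  linarith

variable {V : Type} [DecidableEq V] {ι : Type} {K d b : ℕ}

/-- A vertex of the power with given free and reserved coordinates. -/
def pt (e : ι ≃ Fin K ⊕ Aux b) (h : Fin K → V) (y : Aux b → V) : ι → V :=
  fun j => Sum.elim h y (e j)

omit [DecidableEq V] in
lemma pt_inj (e : ι ≃ Fin K ⊕ Aux b) {h h' : Fin K → V} {y y' : Aux b → V}
    (he : pt e h y = pt e h' y') : h = h' ∧ y = y' :=
  ⟨funext fun i => by simpa [pt] using congrFun he (e.symm (.inl i)),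
    funext fun i => by simpa [pt] using congrFun he (e.symm (.inr i))⟩

omit [DecidableEq V] in
lemma adj_pt_right {G : SimpleGraph V} (e : ι ≃ Fin K ⊕ Aux b) (h : Fin K → V)
    {y y' : Aux b → V} (ha : (powGraph G (Aux b)).Adj y y') :
    (powGraph G ι).Adj (pt e h y) (pt e h y') := by
  obtain ⟨i, hi, ho⟩ := ha
  refine ⟨e.symm (.inr i), by simpa [pt] using hi, fun j hj => ?_⟩
  rcases hej : e j with a | a
  · simp [pt, hej]
  · simp only [pt, hej, Sum.elim_inr]
    exact ho a fun hai => hj (by rw [← hai, ← hej, Equiv.symm_apply_apply])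

omit [DecidableEq V] in
lemma adj_pt_left {G : SimpleGraph V} (e : ι ≃ Fin K ⊕ Aux b) (h : Fin K → V) (y : Aux b → V)
    {i : Fin K} {v : V} (ha : G.Adj (h i) v) :
    (powGraph G ι).Adj (pt e h y) (pt e (Function.update h i v) y) := by
  refine ⟨e.symm (.inl i), by simpa [pt] using ha, fun j hj => ?_⟩
  rcases hej : e j with a | a
  · simp only [pt, hej, Sum.elim_inl]
    exact (Function.update_of_ne (fun hai => hj (by rw [← hai, ← hej, Equiv.symm_apply_apply]))
      _ _).symm
  · simp [pt, hej]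

/-- The vertex of the tree at a word. -/
def zof (o : V) (F : V × Fin b → V) : List (Fin b) → V
  | [] => o
  | i :: u => F (zof o F u, i)

omit [DecidableEq V] in
lemma zof_inj {o : V} {F : V × Fin b → V} (hF : Function.Injective F) (ho : ∀ x, F x ≠ o) :
    Function.Injective (zof o F) := by
  intro u
  induction u with
  | nil =>
    intro v hv
    cases v with
    | nil => rfl
    | cons j v => exact absurd hv.symm (ho _)
  | cons i u ih =>
    intro v hv
    cases v with
    | nil => exact absurd hv (ho _)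
    | cons j v =>
      have := hF hv
      simp only [Prod.mk.injEq] at this
      rw [ih this.1, this.2]

/-- The data of the construction. -/
structure Setup (G : SimpleGraph V) (ι : Type) (K d b : ℕ) where
  e : ι ≃ Fin K ⊕ Aux b
  o : V
  nb : V → Fin d → V
  nb_adj : ∀ v c, G.Adj v (nb v c)
  nb_inj : ∀ v, Function.Injective (nb v)
  F : V × Fin b → V
  F_inj : Function.Injective F
  F_ne : ∀ x, F x ≠ o
  M : ℕ
  con : V × Fin b → Finset (Sym2 (Aux b → V))
  con_card : ∀ x, (con x).card ≤ M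
  con_sig : ∀ x, ∀ ε ∈ con x, ∃ u v, ε = s(u, v) ∧ (powGraph G (Aux b)).Adj u v ∧
    Sig o x.1 (F x) x.2 u v
  con_reach : ∀ x, ∀ H' : SimpleGraph (Aux b → V),
    (∀ u v, (powGraph G (Aux b)).Adj u v → s(u, v) ∈ con x → H'.Adj u v) →
      H'.Reachable (node o x.1) (node o (F x))

variable [DecidableEq ι] [Fintype ι] {G : SimpleGraph V} (S : Setup G ι K d b) (L : ℕ)

/-- The edges used from seed `h` at tree vertex `u`, along path `g`, towards child `i`. -/
def link (u : List (Fin b)) (h : Fin K → V) (i : Fin b) (g : List (Fin K × Fin d)) :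
    Finset (Sym2 (ι → V)) :=
  (pedges h S.nb g).image (Sym2.map fun h' => pt S.e h' (node S.o (zof S.o S.F u))) ∪
    (S.con (zof S.o S.F u, i)).image (Sym2.map fun y => pt S.e (st h S.nb g) y)

/-- The seed `h` at `u` has open links for `n` further generations. -/
def reach : ℕ → List (Fin b) → (Fin K → V) → Set (Sym2 (ι → V) → Bool)
  | 0, _, _ => Set.univ
  | n + 1, u, h => ⋃ i : Fin b, ⋃ g ∈ paths (K := K) (d := d) L,
      allOpen (link S u h i g) ∩ reach n (i :: u) (st h S.nb g)

/-- The coordinates deciding `reach`. -/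
def depSet : ℕ → List (Fin b) → (Fin K → V) → Finset (Sym2 (ι → V))
  | 0, _, _ => ∅
  | n + 1, u, h => univ.biUnion fun i => (paths (K := K) (d := d) L).biUnion fun g =>
      link S u h i g ∪ depSet n (i :: u) (st h S.nb g)

lemma dep_reach : ∀ n u h, Dep (reach S L n u h) (depSet S L n u h)
  | 0, _, _ => fun _ _ _ _ => trivial
  | n + 1, u, h => by
    intro ω ω' he hω
    simp only [reach, Set.mem_iUnion, exists_prop, Set.mem_inter_iff] at hω ⊢
    obtain ⟨i, g, hg, h1, h2⟩ := hω
    have hm : ∀ ε, ε ∈ link S u h i g ∪ depSet S L n (i :: u) (st h S.nb g) →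
        ω ε = ω' ε := fun ε hε =>
      he ε (mem_biUnion.2 ⟨i, mem_univ i, mem_biUnion.2 ⟨g, hg, hε⟩⟩)
    exact ⟨i, g, hg, dep_allOpen _ ω ω' (fun ε hε => hm ε (mem_union_left _ hε)) h1,
      dep_reach n _ _ ω ω' (fun ε hε => hm ε (mem_union_right _ hε)) h2⟩

/-- The edge belongs to the tree vertex `v`. -/
def Owned (v : List (Fin b)) (ε : Sym2 (ι → V)) : Prop :=
  ∃ h h' y y', ε = s(pt S.e h y, pt S.e h' y') ∧
    ((h ≠ h' ∧ y = node S.o (zof S.o S.F v) ∧ y' = node S.o (zof S.o S.F v)) ∨
      (h = h' ∧ ∃ i, Sig S.o (zof S.o S.F v) (S.F (zof S.o S.F v, i)) i y y'))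

omit [DecidableEq V] [DecidableEq ι] [Fintype ι] in
lemma Owned.unique {v v' : List (Fin b)} {ε : Sym2 (ι → V)} (h : Owned S v ε)
    (h' : Owned S v' ε) : v = v' := by
  have hz : ∀ w w' : List (Fin b), zof S.o S.F w = zof S.o S.F w' → w = w' :=
    fun w w' => fun hw => zof_inj S.F_inj S.F_ne hw
  obtain ⟨a, a', y, y', rfl, hA⟩ := h
  obtain ⟨c, c', x, x', he, hC⟩ := h'
  have hnode : ∀ w w' : List (Fin b), node (b := b) S.o (zof S.o S.F w)
      = node S.o (zof S.o S.F w') → w = w' :=
    fun w w' hw => hz w w' (by simpa [node] using congrFun hw (.inl false))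
  have hsig : ∀ {i j : Fin b}, Sig S.o (zof S.o S.F v) (S.F (zof S.o S.F v, i)) i y y' →
      Sig S.o (zof S.o S.F v') (S.F (zof S.o S.F v', j)) j y y' → v = v' := by
    intro i j h1 h2
    obtain ⟨rfl, h3 | h3⟩ := h1.unique h2
    · exact hz _ _ h3
    · exact hz _ _ (congrArg Prod.fst (S.F_inj h3))
  rcases Sym2.eq_iff.1 he with ⟨e1, e2⟩ | ⟨e1, e2⟩ <;>
    obtain ⟨rfl, rfl⟩ := pt_inj S.e e1 <;> obtain ⟨rfl, rfl⟩ := pt_inj S.e e2 <;>
    rcases hA with ⟨hne, hy, hy'⟩ | ⟨heq, i, hs⟩ <;> rcases hC with ⟨hne', hx, hx'⟩ | ⟨heq', j, hs'⟩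
  · exact hnode _ _ (hy.symm.trans hx)
  · exact absurd heq' hne
  · exact absurd heq hne'
  · exact hsig hs hs'
  · exact hnode _ _ (hy.symm.trans hx')
  · exact absurd heq'.symm hne
  · exact absurd heq.symm hne'
  · exact hsig hs hs'.symm

lemma owned_link {u : List (Fin b)} {h : Fin K → V} {i : Fin b} {n : ℕ}
    {g : List (Fin K × Fin d)} (hg : g ∈ paths n) {ε : Sym2 (ι → V)} (hε : ε ∈ link S u h i g) :
    Owned S u ε := by
  rcases mem_union.1 hε with hε | hε
  · obtain ⟨η, hη, rfl⟩ := mem_image.1 hε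
    suffices ∀ {n : ℕ} {g : List (Fin K × Fin d)}, g ∈ paths n → ∀ η ∈ pedges h S.nb g,
        ∃ a a', η = s(a, a') ∧ a ≠ a' by
      obtain ⟨a, a', rfl, hne⟩ := this hg η hη
      exact ⟨a, a', _, _, rfl, .inl ⟨hne, rfl, rfl⟩⟩
    intro n
    induction n with
    | zero => intro g hg η hη; simp [paths] at hg; simp [hg, pedges] at hη
    | succ n ih =>
      intro g hg η hη
      obtain ⟨g', hg', x, hx, rfl⟩ := mem_paths_succ.1 hg
      rcases mem_insert.1 hη with rfl | hη
      · refine ⟨_, _, rfl, fun he => ?_⟩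
        have := congrFun he x.1
        rw [st_of_notMem h S.nb (mem_filter.1 hx).2] at this
        simp only [st, Function.update_self] at this
        exact (S.nb_adj _ _).ne this
      · exact ih hg' η hη
  · obtain ⟨η, hη, rfl⟩ := mem_image.1 hε
    obtain ⟨a, a', rfl, -, hs⟩ := S.con_sig _ η hη
    exact ⟨_, _, a, a', rfl, .inr ⟨rfl, i, hs⟩⟩

lemma owned_depSet : ∀ n u h, ∀ ε ∈ depSet S L n u h, ∃ v, u <:+ v ∧ Owned S v ε
  | 0, _, _, ε, hε => by simp [depSet] at hε
  | n + 1, u, h, ε, hε => by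
    simp only [depSet, mem_biUnion, mem_union] at hε
    obtain ⟨i, -, g, hg, hε | hε⟩ := hε
    · exact ⟨u, List.suffix_rfl, owned_link S hg hε⟩
    · obtain ⟨v, hv, ho⟩ := owned_depSet n _ _ ε hε
      exact ⟨v, (List.suffix_cons i u).trans hv, ho⟩

/-- Lower bound for `reach`. -/
theorem reach_bound {q : ℝ} (hq : 0 ≤ q) (hq1 : q ≤ 1) (hb : 8 ≤ b * q ^ 2)
    (hlink : ∀ u h i, q ≤ (perc (ι → V) p).real
      (⋃ g ∈ paths (K := K) (d := d) L, allOpen (link S u h i g))) :
    ∀ n u h, q / 4 ≤ (perc (ι → V) p).real (reach S L n u h)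
  | 0, u, h => by simp only [reach, probReal_univ]; linarith
  | n + 1, u, h => by
    refine step_bound (p := p) (paths (K := K) (d := d) L) (fun i g => allOpen (link S u h i g))
      (fun i g => reach S L n (i :: u) (st h S.nb g))
      (univ.biUnion fun i => (paths (K := K) (d := d) L).biUnion fun g => link S u h i g)
      (fun i => (paths (K := K) (d := d) L).biUnion fun g => depSet S L n (i :: u) (st h S.nb g))
      (fun i g hg => (dep_allOpen _).mono fun ε hε => mem_biUnion.2
        ⟨i, mem_univ i, mem_biUnion.2 ⟨g, hg, hε⟩⟩)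
      (fun i g hg => (dep_reach S L n _ _).mono fun ε hε => mem_biUnion.2 ⟨g, hg, hε⟩)
      (fun i => ?_) (fun i j hij => ?_) hq hq1 hb (hlink u h)
      (fun i g _ => reach_bound hq hq1 hb hlink n _ _)
    · rw [disjoint_left]
      intro ε h1 h2
      obtain ⟨j, -, h1⟩ := mem_biUnion.1 h1
      obtain ⟨g, hg, h1⟩ := mem_biUnion.1 h1
      obtain ⟨g', -, h2⟩ := mem_biUnion.1 h2
      obtain ⟨v, hv, ho⟩ := owned_depSet S L n _ _ ε h2
      have := (owned_link S hg h1).unique S ho
      subst this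
      have := hv.length_le
      simp at this
    · rw [disjoint_left]
      intro ε h1 h2
      obtain ⟨g, -, h1⟩ := mem_biUnion.1 h1
      obtain ⟨g', -, h2⟩ := mem_biUnion.1 h2
      obtain ⟨v, hv, ho⟩ := owned_depSet S L n _ _ ε h1
      obtain ⟨v', hv', ho'⟩ := owned_depSet S L n _ _ ε h2
      obtain rfl := ho.unique S ho'
      have := List.suffix_of_suffix_length_le hv hv' (by simp)
      exact hij (List.cons.inj (this.eq_of_length (by simp))).1

lemma reach_antitone : ∀ n u h, reach S L (n + 1) u h ⊆ reach S L n u h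
  | 0, _, _ => Set.subset_univ _
  | n + 1, u, h => Set.iUnion_mono fun i => Set.iUnion₂_mono fun g _ =>
      Set.inter_subset_inter_right _ (reach_antitone n _ _)

lemma reach_vertex (H : SimpleGraph (ι → V)) (hH : H = powGraph G ι) :
    ∀ n u h, ∀ ω ∈ reach S L n u h, ∃ v h', v.length = u.length + n ∧
      (openGraph H ω).Reachable (pt S.e h (node S.o (zof S.o S.F u)))
        (pt S.e h' (node S.o (zof S.o S.F v)))
  | 0, u, h, _, _ => ⟨u, h, rfl, SimpleGraph.Reachable.refl _⟩
  | n + 1, u, h, ω, hω => by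
    simp only [reach, Set.mem_iUnion, exists_prop, Set.mem_inter_iff] at hω
    obtain ⟨i, g, hg, hopen, hrest⟩ := hω
    obtain ⟨v, h', hv, hr⟩ := reach_vertex H hH n _ _ ω hrest
    refine ⟨v, h', by rw [hv, List.length_cons]; omega, ?_⟩
    have hfib : ∀ {m : ℕ} {g' : List (Fin K × Fin d)}, g' ∈ paths m →
        (∀ η ∈ pedges h S.nb g',
          ω (Sym2.map (fun a => pt S.e a (node S.o (zof S.o S.F u))) η) = true) →
        (openGraph H ω).Reachable (pt S.e h (node S.o (zof S.o S.F u)))
          (pt S.e (st h S.nb g') (node S.o (zof S.o S.F u))) := by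
      intro m
      induction m with
      | zero => intro g' hg' _; simp [paths] at hg'; subst hg'; exact .refl _
      | succ m ih =>
        intro g' hg' ho
        obtain ⟨g₀, hg₀, x, hx, rfl⟩ := mem_paths_succ.1 hg'
        refine (ih hg₀ fun η hη => ho η (mem_insert_of_mem hη)).trans
          (SimpleGraph.Adj.reachable ⟨?_, ?_⟩)
        · rw [hH]
          refine adj_pt_left S.e _ _ ?_
          rw [st_of_notMem h S.nb (mem_filter.1 hx).2]
          exact S.nb_adj _ _
        · simpa using ho _ (mem_insert_self _ _)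
    have h1 := hfib hg fun η hη => hopen _ (mem_union_left _ (mem_image_of_mem _ hη))
    refine h1.trans (SimpleGraph.Reachable.trans ?_ hr)
    have h2 := S.con_reach (zof S.o S.F u, i)
      ((openGraph H ω).comap fun y => pt S.e (st h S.nb g) y) fun a a' ha hm => by
        refine ⟨by rw [hH]; exact adj_pt_right S.e _ ha, ?_⟩
        simpa using hopen _ (mem_union_right _ (mem_image_of_mem _ hm))
    exact h2.map ⟨fun y => pt S.e (st h S.nb g) y, fun hy => hy⟩

/-- An infinite cluster appears with positive probability. -/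
theorem infinite_cluster {q : ℝ} (hq : 0 < q) (hq1 : q ≤ 1) (hb : 8 ≤ b * q ^ 2)
    (hlink : ∀ u h i, q ≤ (perc (ι → V) p).real
      (⋃ g ∈ paths (K := K) (d := d) L, allOpen (link S u h i g))) :
    0 < perc (ι → V) p
      {ω | ∃ x, {y | (openGraph (powGraph G ι) ω).Reachable x y}.Infinite} := by
  let h₀ : Fin K → V := fun _ => S.o
  have hlim := tendsto_measure_iInter_atTop (μ := perc (ι → V) p)
    (fun n => (dep_reach S L n [] h₀).measurableSet.nullMeasurableSet)
    (antitone_nat_of_succ_le fun n => reach_antitone S L n [] h₀) ⟨0, measure_ne_top _ _⟩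
  have hge : ENNReal.ofReal (q / 4) ≤ perc (ι → V) p (⋂ n, reach S L n [] h₀) :=
    ge_of_tendsto' hlim fun n => (ENNReal.ofReal_le_ofReal
      (reach_bound S L hq.le hq1 hb hlink n [] h₀)).trans_eq
        (ofReal_measureReal (measure_ne_top _ _))
  refine lt_of_lt_of_le (ENNReal.ofReal_pos.2 (by positivity)) (hge.trans (measure_mono fun ω hω => ?_))
  refine ⟨pt S.e h₀ (node S.o (zof S.o S.F [])), ?_⟩
  have hv := fun n => reach_vertex S L (powGraph G ι) rfl n [] h₀ ω (Set.mem_iInter.1 hω n)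
  choose v h' hlen hr using hv
  refine Set.infinite_of_injective_forall_mem
    (f := fun n => pt S.e (h' n) (node S.o (zof S.o S.F (v n)))) ?_ hr
  intro a c hac
  have h1 := (pt_inj S.e hac).2
  have h2 := zof_inj S.F_inj S.F_ne (by simpa [node] using congrFun h1 (.inl false))
  simpa [hlen] using congrArg List.length h2

end Vale.Agent.P165
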