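import Mathlib
import Vale.Agent.P165.Unique
import Vale.Agent.P165.Recursion

/-!
Large Cartesian powers of nonamenable graphs have a nonuniqueness phase.
-/

namespace Vale.Agent.P165

open MeasureTheory Finset

variable {V : Type} {G : SimpleGraph V}

noncomputable instance powLocallyFinite [G.LocallyFinite] {ι : Type} [Fintype ι] :
    (powGraph G ι).LocallyFinite := fun x => by
  classical
  refine (Set.Finite.subset (univ.biUnion fun i =>
    (G.neighborFinset (x i)).image (Function.update x i)).finite_toSet fun y hy => ?_).fintype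
  obtain ⟨i, hi, ho⟩ := hy
  simp only [coe_biUnion, Set.mem_iUnion, mem_coe, mem_image]
  refine ⟨i, mem_univ i, y i, by simpa using hi, ?_⟩
  funext j
  by_cases hj : j = i
  · subst hj; simp
  · rw [Function.update_of_ne hj]; exact ho j hj

section

variable [G.LocallyFinite] [DecidableEq V] {ι : Type} [Fintype ι] [DecidableEq ι]

lemma pow_neighborFinset (x : ι → V) :
    (powGraph G ι).neighborFinset x
      = univ.biUnion fun i => (G.neighborFinset (x i)).image (Function.update x i) := by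
  ext y
  rw [SimpleGraph.mem_neighborFinset]
  simp only [mem_biUnion, mem_univ, true_and, mem_image, SimpleGraph.mem_neighborFinset]
  constructor
  · rintro ⟨i, hi, ho⟩
    refine ⟨i, y i, hi, funext fun j => ?_⟩
    by_cases hj : j = i
    · subst hj; simp
    · rw [Function.update_of_ne hj]; exact ho j hj
  · rintro ⟨i, w, hw, rfl⟩
    exact ⟨i, by simpa using hw, fun j hj => (Function.update_of_ne hj _ _).symm⟩

lemma pow_pieces_disjoint (x : ι → V) : Set.PairwiseDisjoint ((univ : Finset ι) : Set ι)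
    fun i => (G.neighborFinset (x i)).image (Function.update x i) := by
  intro i _ j _ hij
  simp only [Function.onFun, disjoint_left, mem_image, SimpleGraph.mem_neighborFinset]
  rintro _ ⟨a, ha, rfl⟩ ⟨c, -, hc⟩
  have := congrFun hc i
  rw [Function.update_of_ne hij, Function.update_self] at this
  exact ha.ne this

lemma pow_degree {d : ℕ} (hreg : ∀ v, (G.neighborFinset v).card = d) (x : ι → V) :
    ((powGraph G ι).neighborFinset x).card = Fintype.card ι * d := by
  rw [pow_neighborFinset, card_biUnion (pow_pieces_disjoint x)]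
  simp [card_image_of_injective _ (Function.update_injective x _), hreg]

lemma pow_iso {κ : ℝ}
    (hiso : ∀ A : Finset V, κ * A.card ≤ {v | v ∉ A ∧ ∃ a ∈ A, G.Adj a v}.ncard)
    (o : V) (S : Finset (ι → V)) :
    (Fintype.card ι : ℝ) * κ * S.card
      ≤ ∑ x ∈ S, ((((powGraph G ι).neighborFinset x) \ S).card : ℝ) := by
  have hsplit : ∀ x ∈ S, (((powGraph G ι).neighborFinset x) \ S).card
      = ∑ i : ι, ((G.neighborFinset (x i)).filter fun w => Function.update x i w ∉ S).card := by
    intro x _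
    rw [pow_neighborFinset, Finset.sdiff_eq_filter, filter_biUnion, card_biUnion]
    · refine sum_congr rfl fun i _ => ?_
      rw [filter_image, card_image_of_injective _ (Function.update_injective x i)]
    · exact (pow_pieces_disjoint x).mono fun i => filter_subset _ _
  have hone : ∀ i : ι, κ * S.card
      ≤ ∑ x ∈ S, (((G.neighborFinset (x i)).filter fun w => Function.update x i w ∉ S).card : ℝ) := by
    intro i
    let key : (ι → V) → (ι → V) := fun x => Function.update x i o
    rw [← sum_fiberwise_of_maps_to (fun x hx => mem_image_of_mem key hx)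
      (fun x => (((G.neighborFinset (x i)).filter fun w => Function.update x i w ∉ S).card : ℝ)),
      card_eq_sum_card_image key S, Nat.cast_sum, mul_sum]
    refine sum_le_sum fun c hc => ?_
    set T := S.filter fun x => key x = c with hT
    set A := T.image fun x => x i with hA
    have heq : ∀ x ∈ T, ∀ w, Function.update x i w = Function.update c i w := fun x hx w => by
      rw [← (mem_filter.1 hx).2]; simp [key]
    have hinjT : ∀ x ∈ T, x = Function.update c i (x i) := fun x hx => by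
      rw [← heq x hx, Function.update_eq_self]
    have hAcard : A.card = T.card := card_image_of_injOn fun x hx y hy hxy => by
      rw [hinjT x hx, hinjT y hy]
      exact congrArg _ hxy
    have hbd : {v | v ∉ A ∧ ∃ a ∈ A, G.Adj a v}
        ⊆ ↑(T.biUnion fun x => (G.neighborFinset (x i)).filter fun w => Function.update x i w ∉ S) := by
      rintro v ⟨hv, a, ha, hav⟩
      obtain ⟨x, hx, rfl⟩ := mem_image.1 ha
      refine mem_coe.2 (mem_biUnion.2 ⟨x, hx, mem_filter.2 ⟨by simpa using hav, fun hS => hv ?_⟩⟩)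
      refine mem_image.2 ⟨_, mem_filter.2 ⟨hS, ?_⟩, Function.update_self _ _ _⟩
      simpa [key] using (mem_filter.1 hx).2
    calc κ * (T.card : ℝ) = κ * A.card := by rw [hAcard]
      _ ≤ _ := hiso A
      _ ≤ ((T.biUnion fun x => (G.neighborFinset (x i)).filter
            fun w => Function.update x i w ∉ S).card : ℝ) := by
          rw [← Set.ncard_coe_finset]
          exact Nat.cast_le.2 (Set.ncard_le_ncard hbd (finite_toSet _))
      _ ≤ _ := by exact_mod_cast card_biUnion_le
  calc (Fintype.card ι : ℝ) * κ * S.card = ∑ _i : ι, κ * S.card := by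
        rw [sum_const, card_univ, nsmul_eq_mul, mul_assoc]
    _ ≤ ∑ i : ι, ∑ x ∈ S, (((G.neighborFinset (x i)).filter
          fun w => Function.update x i w ∉ S).card : ℝ) := sum_le_sum fun i _ => hone i
    _ = _ := by
        rw [sum_comm]
        exact sum_congr rfl fun x hx => by rw [hsplit x hx, Nat.cast_sum]

end

/-- In an infinite connected quasi-transitive graph every orbit is infinite. -/
theorem orbit_infinite [G.LocallyFinite] [Infinite V] (hc : G.Connected)
    (hqt : ∃ R : Finset V, ∀ v, ∃ r ∈ R, ∃ φ : G ≃g G, φ r = v) (x : V) :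
    {z | ∃ φ : G ≃g G, φ x = z}.Infinite := by
  classical
  intro hfin
  obtain ⟨R, hR⟩ := hqt
  have hq : ∀ r : V, ∃ n, ∃ q : G.Walk x r, q.length = n := fun r => by
    obtain ⟨q⟩ := hc.preconnected x r
    exact ⟨_, q, rfl⟩
  choose n q hq using hq
  set N := R.sup n with hN
  have : (Set.univ : Set V) ⊆ ↑(hfin.toFinset.biUnion fun a => near G a N) := by
    intro v _
    obtain ⟨r, hr, φ, rfl⟩ := hR v
    refine mem_coe.2 (mem_biUnion.2 ⟨φ x, hfin.mem_toFinset.2 ⟨φ, rfl⟩, ?_⟩)
    refine mem_near ((q r).map φ.toHom) ?_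
    rw [SimpleGraph.Walk.length_map, hq]
    exact le_sup (f := n) hr
  exact Set.infinite_univ ((Finset.finite_toSet _).subset this)

lemma pow_orbit_infinite {ι : Type} (i₀ : ι)
    (h : ∀ v : V, {z | ∃ φ : G ≃g G, φ v = z}.Infinite) (x : ι → V) :
    {z | ∃ φ : powGraph G ι ≃g powGraph G ι, φ x = z}.Infinite := by
  refine Set.Infinite.of_image (fun z => z i₀) ((h (x i₀)).mono ?_)
  rintro _ ⟨φ, rfl⟩
  let ψ : powGraph G ι ≃g powGraph G ι :=
    { toEquiv := Equiv.piCongrRight fun _ => φ.toEquiv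
      map_rel_iff' := by
        intro a c
        simp [powGraph, φ.map_adj_iff] }
  exact ⟨ψ x, ⟨ψ, rfl⟩, rfl⟩

/-- An open link exists with probability bounded below, uniformly. -/
theorem link_bound [DecidableEq V] {ι : Type} [DecidableEq ι] [Fintype ι] {K d b L : ℕ}
    {p : unitInterval} (hp : 0 < (p : ℝ)) (S : Setup G ι K d b) {θ : ℝ} (hθ : θ < 1)
    (hD : (p : ℝ)⁻¹ + L ≤ θ * ((K - L : ℕ) * d : ℕ)) (hm : θ ^ L * (p : ℝ)⁻¹ ^ S.M ≤ 1)
    (hKL : L ≤ K) (hd : 0 < d)
    (u : List (Fin b)) (h : Fin K → V) (i : Fin b) :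
    1 / (2 + 1 / (1 - θ)) ≤ (perc (ι → V) p).real
      (⋃ g ∈ paths (K := K) (d := d) L, allOpen (link S u h i g)) := by
  have hnb : ∀ v c, S.nb v c ≠ v := fun v c => (S.nb_adj v c).ne.symm
  set z := zof S.o S.F u with hz
  set fmap : (Fin K → V) → ι → V := fun a => pt S.e a (node S.o z) with hfmap
  have hfinj : Function.Injective (Sym2.map fmap) :=
    Sym2.map.injective fun a c hac => (pt_inj S.e hac).1
  have hcinj : ∀ a : Fin K → V, Function.Injective (Sym2.map fun y : Aux b → V => pt S.e a y) := fun a =>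
    Sym2.map.injective fun y y' hyy => (pt_inj S.e hyy).2
  have hcross : ∀ {n} {g : List (Fin K × Fin d)}, g ∈ paths n → ∀ η ∈ pedges h S.nb g, ∀ a
      (η' : Sym2 (Aux b → V)), Sym2.map fmap η ≠ Sym2.map (fun y => pt S.e a y) η' := by
    intro n g hg η hη a η' he
    induction η using Sym2.ind with
    | _ c c' =>
      induction η' using Sym2.ind with
      | _ y y' =>
        have hne : c ≠ c' := by
          intro hcc
          subst hcc
          suffices ∀ {n : ℕ} {g : List (Fin K × Fin d)}, g ∈ paths n →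
              s(c, c) ∉ pedges h S.nb g from this hg hη
          intro n
          induction n with
          | zero => intro g hg; simp [paths] at hg; simp [hg, pedges]
          | succ n ih =>
            intro g hg hm
            obtain ⟨g', hg', x, hx, rfl⟩ := mem_paths_succ.1 hg
            rcases mem_insert.1 hm with hm | hm
            · have e0 := card_chg_st (h := h) hnb hg'
              have e1 := card_chg_st (h := h) hnb hg
              rcases Sym2.eq_iff.1 hm with ⟨h1, h2⟩ | ⟨h1, h2⟩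
              · rw [h1.symm.trans h2] at e0; omega
              · rw [h2.symm.trans h1] at e0; omega
            · exact ih hg' hm
        simp only [Sym2.map_mk] at he
        rcases Sym2.eq_iff.1 he with ⟨e1, e2⟩ | ⟨e1, e2⟩
        · exact hne ((pt_inj S.e e1).1.trans (pt_inj S.e e2).1.symm)
        · exact hne ((pt_inj S.e e1).1.trans (pt_inj S.e e2).1.symm)
  have hdisj : ∀ {n} {g : List (Fin K × Fin d)}, g ∈ paths n → ∀ a,
      Disjoint ((pedges h S.nb g).image (Sym2.map fmap))
        ((S.con (z, i)).image (Sym2.map fun y => pt S.e a y)) := by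
    intro n g hg a
    rw [disjoint_left]
    intro ε h1 h2
    obtain ⟨η, hη, rfl⟩ := mem_image.1 h1
    obtain ⟨η', -, h3⟩ := mem_image.1 h2
    exact hcross hg η hη a η' h3.symm
  have hr : 1 ≤ (p : ℝ)⁻¹ := (one_le_inv₀ hp).2 p.2.2
  have hθ0 : 0 ≤ 1 / (1 - θ) := by
    have : 0 < 1 - θ := by linarith
    positivity
  refine second_moment hp _ (fun g => link S u h i g) (n := L + (S.con (z, i)).card) (by linarith)
    ?_ ?_ ?_
  · suffices ∀ n ≤ K, (paths (K := K) (d := d) n).Nonempty from this L hKL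
    intro n
    induction n with
    | zero => intro _; simp [paths]
    | succ n ih =>
      intro hn
      obtain ⟨g, hg⟩ := ih (by omega)
      obtain ⟨x, hx⟩ : (allowed g).Nonempty := card_pos.1 (by
        rw [card_allowed hg]; exact Nat.mul_pos (by omega) hd)
      exact ⟨x :: g, mem_paths_succ.2 ⟨g, hg, x, hx, rfl⟩⟩
  · intro g hg
    rw [link, ← hz, card_union_of_disjoint (hdisj hg _), card_image_of_injective _ hfinj,
      card_image_of_injective _ (hcinj _), card_pedges hnb hg]
  · intro g hg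
    refine le_trans (sum_le_sum fun g' hg' => pow_le_pow_right₀ hr ?_)
      (path_weight (h := h) hnb S.nb_inj hg hr hθ hD S.M hm)
    set I := (pedges h S.nb g' ∩ pedges h S.nb g).image (Sym2.map fmap) with hI
    have hsub : link S u h i g ∩ link S u h i g' ⊆ I ∪
        (if st h S.nb g' = st h S.nb g
          then (S.con (z, i)).image (Sym2.map fun y => pt S.e (st h S.nb g) y) else ∅) := by
      intro ε hε
      obtain ⟨h1, h2⟩ := mem_inter.1 hε
      rcases mem_union.1 h1 with h1 | h1 <;> rcases mem_union.1 h2 with h2 | h2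
      · refine mem_union_left _ ?_
        obtain ⟨η, hη, rfl⟩ := mem_image.1 h1
        obtain ⟨η', hη', he⟩ := mem_image.1 h2
        obtain rfl := hfinj he
        exact mem_image_of_mem _ (mem_inter.2 ⟨hη', hη⟩)
      · exact absurd h2 (disjoint_left.1 (hdisj hg _) h1)
      · exact absurd h1 (disjoint_left.1 (hdisj hg' _) h2)
      · refine mem_union_right _ ?_
        obtain ⟨η, hη, rfl⟩ := mem_image.1 h1
        obtain ⟨η', hη', he⟩ := mem_image.1 h2
        have : st h S.nb g' = st h S.nb g := by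
          induction η using Sym2.ind with
          | _ y y' =>
            induction η' using Sym2.ind with
            | _ w w' =>
              simp only [Sym2.map_mk] at he
              rcases Sym2.eq_iff.1 he with ⟨e1, -⟩ | ⟨e1, -⟩ <;> exact (pt_inj S.e e1).1
        rw [if_pos this]
        exact mem_image_of_mem _ hη
    refine (card_le_card hsub).trans ((card_union_le _ _).trans (add_le_add card_image_le ?_))
    split_ifs
    · exact card_image_le.trans (S.con_card _)
    · simp

/-- Choice of the path length. -/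
lemma exists_length {d b M : ℕ} {l θ : ℝ} (hd : 0 < d) (hl1 : 1 < l) (hθ : θ = (1 + 1 / l) / 2) :
    ∃ k₀ : ℕ, ∀ k, k₀ ≤ k → ∃ L : ℕ, 2 ≤ k ∧ L + (2 + 2 * b) ≤ k ∧
      (k : ℝ) * d / l + L ≤ θ * ((k - (2 + 2 * b) - L : ℕ) * d : ℕ) ∧
      θ ^ L * ((k : ℝ) * d / l) ^ M ≤ 1 := by
  have hdR : (1 : ℝ) ≤ d := Nat.one_le_cast.2 hd
  have hli : 1 / l < 1 := by rw [div_lt_one (by linarith)]; exact hl1
  have hli0 : 0 < 1 / l := by positivity
  set η : ℝ := (θ - 1 / l) / 4 with hη
  have hη0 : 0 < η := by rw [hη, hθ]; linarith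
  have hη1 : η ≤ 1 / 4 := by rw [hη, hθ]; linarith
  obtain ⟨N, hN⟩ := exists_nat_gt (1 / η)
  have hN0 : 0 < N := by
    have : (0 : ℝ) < N := lt_trans (by positivity) hN
    exact_mod_cast this
  have h2N : 1 < η * N := by rw [div_lt_iff₀ hη0] at hN; linarith
  have hθ0 : 0 ≤ θ := by rw [hθ]; linarith
  have hθ1 : θ < 1 := by rw [hθ]; linarith
  have hev : ∀ᶠ j : ℕ in Filter.atTop, (2 * N * d : ℝ) ^ M * ((j : ℝ) ^ M * θ ^ j) < 1 := by
    have := (tendsto_pow_const_mul_const_pow_of_lt_one M hθ0 hθ1).const_mul ((2 * N * d : ℝ) ^ M)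
    rw [mul_zero] at this
    exact this.eventually (gt_mem_nhds one_pos)
  obtain ⟨j₀, hj₀⟩ := Filter.eventually_atTop.1 hev
  obtain ⟨k₁, hk₁⟩ := exists_nat_gt ((2 + 2 * b : ℕ) / η)
  refine ⟨max (max k₁ 2) (N * (j₀ + 1)), fun k hk => ⟨k / N, ?_⟩⟩
  simp only [max_le_iff] at hk
  obtain ⟨⟨hk1, hk2⟩, hk3⟩ := hk
  set L := k / N with hL
  have hLj : j₀ + 1 ≤ L := by
    rw [hL, Nat.le_div_iff_mul_le hN0, mul_comm]; exact hk3
  have hLk : (L : ℝ) ≤ η * k := by
    have h1 : (L : ℝ) * N ≤ k := by exact_mod_cast Nat.div_mul_le_self k N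
    nlinarith [Nat.cast_nonneg (α := ℝ) L]
  have hbk : ((2 + 2 * b : ℕ) : ℝ) ≤ η * k := by
    rw [div_lt_iff₀ hη0] at hk₁
    have : (k₁ : ℝ) ≤ k := Nat.cast_le.2 hk1
    nlinarith
  have hkR : (0 : ℝ) ≤ k := Nat.cast_nonneg k
  have hKL : L + (2 + 2 * b) ≤ k := by
    have : (L : ℝ) + ((2 + 2 * b : ℕ) : ℝ) ≤ k := by nlinarith
    exact_mod_cast this
  refine ⟨hk2, hKL, ?_, ?_⟩
  · have hcast : (((k - (2 + 2 * b) - L : ℕ) * d : ℕ) : ℝ)
        = (k - ((2 + 2 * b : ℕ) : ℝ) - L) * d := by
      rw [Nat.cast_mul, Nat.cast_sub (by omega), Nat.cast_sub (by omega)]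
    rw [hcast]
    have h0 : 0 ≤ η * k * d := by positivity
    have h1 : (L : ℝ) ≤ η * k * d := by
      have : η * k * 1 ≤ η * k * d := mul_le_mul_of_nonneg_left hdR (by positivity)
      linarith
    have h2 : ((k : ℝ) - ((2 + 2 * b : ℕ) : ℝ) - L) * d ≥ (k - 2 * η * k) * d :=
      mul_le_mul_of_nonneg_right (by linarith) (by linarith)
    have h3 : (k : ℝ) * d / l = 1 / l * (k * d) := by ring
    have h4 : θ = 1 / l + 4 * η := by rw [hη]; ring
    have h5 : θ * ((k - 2 * η * k) * d) ≥ θ * (k * d) - 2 * (η * k * d) := by nlinarith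
    nlinarith [mul_le_mul_of_nonneg_left h2 hθ0]
  · have h1 : (k : ℝ) * d / l ≤ 2 * N * d * L := by
      have h2 : k < N * (L + 1) := by
        rw [hL]; exact Nat.lt_mul_div_succ k hN0
      have h2' : (k : ℝ) ≤ N * (2 * L) := by
        have : k ≤ N * (2 * L) := h2.le.trans (Nat.mul_le_mul_left N (by omega))
        exact_mod_cast this
      rw [div_le_iff₀ (by linarith)]
      nlinarith [mul_le_mul_of_nonneg_right h2' (show (0 : ℝ) ≤ d by linarith),
        show (0 : ℝ) ≤ 2 * N * d * L by positivity]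
    calc θ ^ L * ((k : ℝ) * d / l) ^ M ≤ θ ^ L * (2 * N * d * L) ^ M :=
          mul_le_mul_of_nonneg_left (pow_le_pow_left₀ (by positivity) h1 M) (pow_nonneg hθ0 L)
      _ = (2 * N * d : ℝ) ^ M * ((L : ℝ) ^ M * θ ^ L) := by rw [mul_pow]; ring
      _ ≤ 1 := (hj₀ L (by omega)).le

/-- Lower bound for `pu`. -/
lemma le_pu [G.LocallyFinite] [Infinite V] {d : ℕ} (hreg : ∀ v, G.degree v = d)
    (hc : G.Connected) (hqt : ∃ R : Finset V, ∀ v, ∃ r ∈ R, ∃ φ : G ≃g G, φ r = v)
    {κ l2 : ℝ} (hκ0 : 0 ≤ κ)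
    (hiso : ∀ A : Finset V, κ * A.card ≤ {v | v ∉ A ∧ ∃ a ∈ A, G.Adj a v}.ncard)
    {k : ℕ} (hk : 0 < k) (hd : 0 < d) (hl : l2 ≤ k * d)
    (hls : l2 * Real.sqrt ((d : ℝ) ^ 2 - κ ^ 2) < d) :
    l2 / (k * d) ≤ pu (powGraph G (Fin k)) := by
  classical
  obtain ⟨o⟩ := hc.nonempty
  have hkd : (0 : ℝ) < k * d := by exact_mod_cast Nat.mul_pos hk hd
  set s := Real.sqrt ((d : ℝ) ^ 2 - κ ^ 2) with hs
  have hs0 : 0 ≤ s := Real.sqrt_nonneg _
  refine le_csInf (Set.insert_nonempty _ _) ?_
  rintro x (rfl | ⟨y, hy, rfl⟩)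
  · rwa [div_le_one hkd]
  by_contra hlt
  rw [not_le, lt_div_iff₀ hkd] at hlt
  haveI : Countable V := countable_of_connected hc
  have hreg' : ∀ v, (G.neighborFinset v).card = d := fun v => by
    rw [SimpleGraph.card_neighborFinset_eq_degree, hreg]
  have hwc : ∀ x z n, walkCount (powGraph G (Fin k)) z n x ≤ ((k : ℝ) * s) ^ n := fun x z n => by
    refine (walkCount_le (hE := (k : ℝ) * κ) (D := k * d) (by positivity) (fun x => ?_) (fun T => ?_)
      x z n).trans_eq ?_
    · rw [pow_degree hreg' x, Fintype.card_fin]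
    · have := pow_iso (ι := Fin k) hiso o T
      rwa [Fintype.card_fin] at this
    · congr 1
      rw [Nat.cast_mul, hs, show ((k : ℝ) * d) ^ 2 - (k * κ) ^ 2
        = (k : ℝ) ^ 2 * ((d : ℝ) ^ 2 - κ ^ 2) by ring, Real.sqrt_mul (by positivity),
        Real.sqrt_sq (by positivity)]
  refine not_unique (H := powGraph G (Fin k)) (p := y) hwc (by positivity) ?_
    (fun x => pow_orbit_infinite ⟨0, hk⟩ (orbit_infinite hc hqt) x) hy
  have h6 : (y : ℝ) * (k * s) * d ≤ l2 * s := by
    nlinarith [mul_le_mul_of_nonneg_right hlt.le hs0]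
  have hd' : (0 : ℝ) < d := Nat.cast_pos.2 hd
  nlinarith

/-- Large powers of nonamenable quasi-transitive regular graphs satisfy `pc < pu`. -/
theorem exists_nonuniqueness [G.LocallyFinite] [Infinite V] {d : ℕ} (hreg : ∀ v, G.degree v = d)
    (hc : G.Connected) (hqt : ∃ R : Finset V, ∀ v, ∃ r ∈ R, ∃ φ : G ≃g G, φ r = v)
    {h : ℝ} (hh : 0 < h)
    (hiso : ∀ A : Finset V, h * A.card ≤ {v | v ∉ A ∧ ∃ a ∈ A, G.Adj a v}.ncard) :
    ∃ k₀ : ℕ, ∀ k, k₀ ≤ k → pc (powGraph G (Fin k)) < pu (powGraph G (Fin k)) := by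
  classical
  obtain ⟨o⟩ := hc.nonempty
  have hd : 0 < d := by
    obtain ⟨v, hv⟩ := exists_ne o
    obtain ⟨q₀⟩ := hc.preconnected o v
    cases q₀ with
    | nil => exact absurd rfl hv
    | cons h' _ =>
      rw [← hreg o, ← SimpleGraph.card_neighborFinset_eq_degree]
      exact card_pos.2 ⟨_, (SimpleGraph.mem_neighborFinset _ _ _).2 h'⟩
  have hdR : (1 : ℝ) ≤ d := Nat.one_le_cast.2 hd
  set κ := min h 1 with hκ
  have hκ0 : 0 < κ := lt_min hh one_pos
  have hκ1 : κ ≤ 1 := min_le_right _ _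
  set s := Real.sqrt ((d : ℝ) ^ 2 - κ ^ 2) with hs
  have hs0 : 0 ≤ s := Real.sqrt_nonneg _
  have hsd : s < d := (Real.sqrt_lt' (by linarith)).2 (by nlinarith)
  set l2 : ℝ := 2 * d / (d + s) with hl2
  set l : ℝ := (1 + l2) / 2 with hl
  have hl2_1 : 1 < l2 := by rw [hl2, one_lt_div (by linarith)]; linarith
  have hl2_2 : l2 ≤ 2 := by rw [hl2, div_le_iff₀ (by linarith)]; linarith
  have hls : l2 * s < d := by
    rw [hl2, div_mul_eq_mul_div, div_lt_iff₀ (by linarith)]; nlinarith
  have hl1 : 1 < l := by rw [hl]; linarith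
  set θ : ℝ := (1 + 1 / l) / 2 with hθ
  have hθ1 : θ < 1 := by
    have : 1 / l < 1 := by rw [div_lt_one (by linarith)]; exact hl1
    rw [hθ]; linarith
  set C : ℝ := 2 + 1 / (1 - θ) with hC
  have hC2 : 2 ≤ C := by
    have : 0 < 1 - θ := by linarith
    have : 0 ≤ 1 / (1 - θ) := by positivity
    linarith
  set b : ℕ := ⌈8 * C ^ 2⌉₊ with hb
  have hbq : 8 ≤ (b : ℝ) * (1 / C) ^ 2 := by
    rw [div_pow, one_pow, mul_one_div, le_div_iff₀ (by positivity)]
    exact Nat.le_ceil _
  obtain ⟨ℓ, F, hF, hFo, hwalk⟩ := exists_children hh hiso o b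
  choose w hw using hwalk
  let nb : V → Fin d → V := fun v c =>
    ((G.neighborFinset v).equivFin.symm
      (Fin.cast (by rw [SimpleGraph.card_neighborFinset_eq_degree, hreg]) c) : V)
  have nb_adj : ∀ v c, G.Adj v (nb v c) := fun v c =>
    (SimpleGraph.mem_neighborFinset _ _ _).1 (Subtype.prop _)
  have nb_inj : ∀ v, Function.Injective (nb v) := fun v c c' hcc =>
    Fin.cast_injective _ ((G.neighborFinset v).equivFin.symm.injective (Subtype.ext hcc))
  choose Es hEs using fun x : V × Fin b =>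
    exists_connector (nb_adj o ⟨0, hd⟩) (w x) (hw x) x.2
  obtain ⟨k₀, hk₀⟩ := exists_length (b := b) (M := 2 * ℓ + 4) hd hl1 hθ
  refine ⟨k₀, fun k hk => ?_⟩
  obtain ⟨L, hk2, hKL, hD, hm⟩ := hk₀ k hk
  have hkR : (2 : ℝ) ≤ k := by exact_mod_cast hk2
  have hkd : (2 : ℝ) ≤ k * d := by nlinarith
  have hp1 : l / (k * d) ∈ unitInterval := ⟨div_nonneg (by linarith) (by linarith), by
    rw [div_le_one (by linarith)]; linarith⟩
  have hcard : Fintype.card (Fin k) = Fintype.card (Fin (k - (2 + 2 * b)) ⊕ Aux b) := by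
    simp [Fintype.card_sum, Fintype.card_prod, Fintype.card_bool]; omega
  let S : Setup G (Fin k) (k - (2 + 2 * b)) d b :=
    { e := Fintype.equivOfCardEq hcard
      o := o
      nb := nb
      nb_adj := nb_adj
      nb_inj := nb_inj
      F := F
      F_inj := hF
      F_ne := hFo
      M := 2 * ℓ + 4
      con := Es
      con_card := fun x => (hEs x).1
      con_sig := fun x => (hEs x).2.1
      con_reach := fun x => (hEs x).2.2 }
  have hp0 : 0 < ((⟨_, hp1⟩ : unitInterval) : ℝ) := div_pos (by linarith) (by linarith)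
  have hinf := infinite_cluster S L (p := ⟨_, hp1⟩) (show (0 : ℝ) < 1 / C by positivity)
    (by rw [div_le_one (by linarith)]; linarith) hbq
    (link_bound hp0 S hθ1 (by simpa [inv_div] using hD) (by simpa [inv_div] using hm)
      (by omega) hd)
  have hpc : pc (powGraph G (Fin k)) ≤ l / (k * d) :=
    csInf_le ⟨0, by rintro x (rfl | ⟨y, -, rfl⟩); exacts [zero_le_one, y.2.1]⟩
      (Set.mem_insert_of_mem _ ⟨⟨_, hp1⟩, hinf, rfl⟩)
  refine lt_of_le_of_lt hpc (lt_of_lt_of_le ?_ (le_pu hreg hc hqt hκ0.le (fun A => le_trans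
    (mul_le_mul_of_nonneg_right (min_le_left h 1) (Nat.cast_nonneg _)) (hiso A))
    (by omega) hd (by linarith : l2 ≤ k * d) hls))
  exact div_lt_div_of_pos_right (by rw [hl]; linarith) (by linarith)

end Vale.Agent.P165
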